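import Crest.Agent.N207.G.EnA2_Mg
import Crest.Agent.N207.G.EnSt
import Crest.Agent.N207.E.Reg2
import Crest.Agent.N207.C.DistUp
import Crest.Agent.N207.AI.HcDef
import Crest.Agent.N207.V.Gv1
import Crest.Agent.N207.V.Gv3
import Crest.Agent.N207.AI.Evo
import Crest.Agent.N207.AI.Glob2
import Crest.Agent.N207.G.Tr
import Crest.Agent.N207.G.Hes

-- ▼ part N207/G/EnS
section

/-!
# Row 207, block G, entropy half (helper23): the potential and the data of the smoothing step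
-/

set_option autoImplicit false
set_option linter.dupNamespace false
set_option linter.unusedSectionVars false
open Set MeasureTheory Filter Topology
open scoped ContDiff

noncomputable section

namespace Crest.Agent.N207.Ge

open HC

variable {M : Type*} [TopologicalSpace M] [CompactSpace M] [MeasurableSpace M]
  [OpensMeasurableSpace M] {H : HC M}

theorem pot_eq {τ : ℝ} (hτ : 0 < τ) {u : M → ℝ} {x : M} (hu : 0 < u x) :
    pot τ u x = -Real.log (u x * (4 * Real.pi * τ) ^ 2) := by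
  have : 0 < 4 * Real.pi * τ := by positivity
  rw [pot, Real.log_mul hu.ne' (by positivity), Real.log_pow]; push_cast; ring

section CS
variable {a t ε τ0 s σ : ℝ} {z : M} {v : ℝ → M → ℝ}

theorem cs_pos (h : H.Ok) (c : H.CS a t z ε τ0 v) : ∀ r ∈ Icc a t, ∀ x, 0 < v r x :=
  h.alg.conj_pos h.evo c.st c.conj c.pos

theorem cs_mass (h : H.Ok) (c : H.CS a t z ε τ0 v) {r : ℝ} (hr : r ∈ Icc a t) :
    ∫ x, v r x ∂H.vol r = 1 := by
  rw [h.alg.conj_mass h.int c.st c.conj hr (right_mem_Icc.2 c.st.2.1.le), c.mass]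

theorem cs_s0 (h : H.Ok) (c : H.CS a t z ε τ0 v) {r : ℝ} (hr : r ∈ Icc a t) : H.S0 (v r) :=
  h.alg.sm_s0 c.conj.1 r hr

theorem cs_tau (c : H.CS a t z ε τ0 v) (hε : ε ≤ s ^ 2)
    (hσ : σ ∈ Icc (t - 2 * s ^ 2) (t - s ^ 2)) : s ^ 2 ≤ τ0 + t - σ ∧ τ0 + t - σ ≤ 3 * s ^ 2 := by
  constructor <;> linarith [c.t0, c.t1, hσ.1, hσ.2]

theorem s0_Fv (h : H.Ok) (c : H.CS a t z ε τ0 v) {r : ℝ} (hr : r ∈ Icc a t) :
    H.S0 (Fv t τ0 v r) :=
  h.alg.s0_cmul _ (h.alg.s0_pot (cs_s0 h c hr) (cs_pos h c r hr) _)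

end CS

/-- upper bound at scale `s` -/
theorem cs_up (C : H.COut) {t0 : ℝ} (h0 : 0 < t0) : ∃ Cu, 0 < Cu ∧
    ∀ {a t ε τ0 s : ℝ} {z : M} {v : ℝ → M → ℝ}, t0 ≤ a → H.CS a t z ε τ0 v → 0 < s →
      ∀ σ, σ ≤ t - s ^ 2 → a ≤ σ → ∀ x, v σ x ≤ Cu / s ^ 4 := by
  obtain ⟨Cu, hC, hk⟩ := C.kerC t0 h0
  refine ⟨Cu, hC, fun {a t ε τ0 s z v} ha c hs σ h1 h2 x => ?_⟩
  have s2 : 0 < s ^ 2 := by positivity
  have k := hk ha c.st c.conj (fun x => (c.pos x).le) σ ⟨h2, by linarith⟩ x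
  rw [c.mass, mul_one] at k
  refine k.trans ?_
  rw [show s ^ 4 = (s ^ 2) ^ 2 by ring]
  gcongr
  linarith

/-- lower bound at scale `s` -/
theorem cs_lo (h : H.Ok) (C : H.COut) {t0 A : ℝ} (h0 : 0 < t0) (hA : 1 ≤ A) : ∃ c, 0 < c ∧
    ∀ {a t ε τ0 s : ℝ} {z : M} {v : ℝ → M → ℝ}, t0 ≤ a → H.CS a t z ε τ0 v → 0 < s → s ≤ 1 / 2 →
      ε ≤ s ^ 2 → ∀ σ ∈ Icc (t - 2 * s ^ 2) (t - s ^ 2), a ≤ σ → ∀ x, H.d t z x ≤ A * s →
        c / s ^ 4 ≤ v σ x := by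
  obtain ⟨c, hc, hk⟩ := gLow h C t0 h0 A hA
  refine ⟨c / 4, by positivity, fun {a t ε τ0 s z v} ha cs hs s1 hε σ hσ h2 x hx => ?_⟩
  have s2 : 0 < s ^ 2 := by positivity
  have h3 : s ≤ √(t - σ) := Real.le_sqrt_of_sq_le (by linarith [hσ.2])
  have k := hk ha cs σ ⟨h2, by linarith [hσ.2]⟩ (by nlinarith [hσ.1]) (by nlinarith)
    (by nlinarith) x (hx.trans (by gcongr))
  refine le_trans ?_ k
  rw [div_div, show 4 * s ^ 4 = (2 * s ^ 2) ^ 2 by ring]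
  have : 0 < t - σ := by linarith [hσ.2]
  gcongr
  linarith [hσ.1]

theorem gPot (h : H.Ok) (C : H.COut) : H.GPot := fun t0 h0 => by
  obtain ⟨Cu, hCu, hu⟩ := cs_up C h0
  refine ⟨12 * |Real.log (Cu * (12 * Real.pi) ^ 2)|, by positivity, fun A hA => ?_⟩
  obtain ⟨c, hc, hl⟩ := cs_lo h C h0 hA
  refine ⟨12 * |Real.log (c * (4 * Real.pi) ^ 2)|, by positivity,
    fun {a t ε τ0 s z v} ha cs hs s1 hε σ hσ h2 x => ?_⟩
  have s2 : 0 < s ^ 2 := by positivity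
  obtain ⟨τ1, τ2⟩ := cs_tau cs hε hσ
  have hv := cs_pos h cs σ ⟨h2, by linarith [hσ.2]⟩ x
  have hπ := Real.pi_pos
  unfold Fv
  set τ := τ0 + t - σ
  have hτ : 0 < τ := by linarith
  rw [pot_eq hτ hv]
  constructor
  · have k : v σ x * (4 * Real.pi * τ) ^ 2 ≤ Cu * (12 * Real.pi) ^ 2 :=
      calc _ ≤ Cu / s ^ 4 * (4 * Real.pi * (3 * s ^ 2)) ^ 2 := by
            gcongr; exact hu ha cs hs σ hσ.2 h2 x
        _ = _ := by field_simp; ring
    have k2 := (Real.log_le_log (by positivity) k).trans (le_abs_self _)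
    have k3 := abs_nonneg (Real.log (Cu * (12 * Real.pi) ^ 2))
    nlinarith
  · intro hx
    have k : c * (4 * Real.pi) ^ 2 ≤ v σ x * (4 * Real.pi * τ) ^ 2 :=
      calc _ = c / s ^ 4 * (4 * Real.pi * s ^ 2) ^ 2 := by field_simp
        _ ≤ _ := by gcongr; exact hl ha cs hs s1 hε σ hσ h2 x hx
    have k2 := (neg_abs_le _).trans (Real.log_le_log (by positivity) k)
    have k3 := abs_nonneg (Real.log (c * (4 * Real.pi) ^ 2))
    nlinarith

/-- integrals of nonnegative functions at two times -/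
theorem int_time (A : H.Alg) (I : H.Intg) {K : ℝ} (K0 : 0 ≤ K)
    (hK : ∀ t ∈ Ioo 0 H.T, ∀ x, |H.R t x| ≤ K) {s t : ℝ} (hs : s ∈ Ioo 0 H.T) (ht : t ∈ Ioo 0 H.T)
    (hst : |t - s| ≤ 1) {u : M → ℝ} (hu : H.S0 u) (h0 : ∀ x, 0 ≤ u x) :
    ∫ x, u x ∂H.vol t ≤ Real.exp K * ∫ x, u x ∂H.vol s := by
  have k := integral_mono_measure (I.vol_le hK s hs t ht) (Eventually.of_forall h0)
    ((A.integrable I hs hu).smul_measure ENNReal.ofReal_ne_top)
  rw [integral_smul_measure, ENNReal.toReal_ofReal (Real.exp_pos _).le, smul_eq_mul] at k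
  refine k.trans (mul_le_mul_of_nonneg_right (Real.exp_le_exp.2 ?_) (int_nonneg' h0))
  nlinarith

/-- the Dirichlet energy of the potential -/
theorem cs_dir (h : H.Ok) {K L : ℝ} (hK : ∀ t ∈ Ioo 0 H.T, ∀ x, |H.R t x| ≤ K)
    {a t ε τ0 σ : ℝ} {z : M} {v : ℝ → M → ℝ} (c : H.CS a t z ε τ0 v) (hσ : σ ∈ Icc a t)
    (hL : ∀ x, -L ≤ pot (τ0 + t - σ) (v σ) x) :
    (τ0 + t - σ) * ∫ x, H.gam σ (pot (τ0 + t - σ) (v σ)) (pot (τ0 + t - σ) (v σ)) x * v σ x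
      ∂H.vol σ ≤ ε + ((τ0 + t - σ) * K + L + 4) := by
  have A := h.alg
  have I := h.int
  have hp := cs_pos h c
  have hτ : 0 < τ0 + t - σ := by linarith [c.t0, hσ.2]
  have hW : H.W σ (τ0 + t - σ) (v σ) ≤ ε := by
    have := A.W_mono I h.evo c.st c.conj hp c.t0 hσ (right_mem_Icc.2 c.st.2.1.le) hσ.2
    simp only [add_sub_cancel_right] at this
    exact this.trans c.hW
  set τ := τ0 + t - σ
  have ht := c.st.mem hσ
  have sv := cs_s0 h c hσ
  have sf := A.s0_pot sv (hp σ hσ) τ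
  have s1 := A.s0_cmul τ (A.s0_mul (A.s0_gam ht sf sf) sv)
  have s2 := A.s0_cmul (τ * K + L + 4) sv
  have s3 := A.s0_mul (A.s0_sub (A.s0_add (A.s0_cmul τ (A.s0_add (A.s0_gam ht sf sf)
    (A.s0_R ht))) sf) (A.s0_const 4)) sv
  have k := int_mono A I ht s1 (A.s0_add s3 s2) fun x => by
    have h1 := (abs_le.1 (hK σ ht x)).1
    have h2 := hL x
    have h3 := hp σ hσ x
    have h4 : 0 ≤ (τ * (H.R σ x + K) + (pot τ (v σ) x + L)) * v σ x :=
      mul_nonneg (add_nonneg (mul_nonneg hτ.le (by linarith)) (by linarith)) h3.le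
    nlinarith
  rw [int_add A I ht s3 s2, integral_const_mul, integral_const_mul, cs_mass h c hσ] at k
  unfold W at hW
  simp_rw [← A.gam_pot2 (τ := τ) ht sv (hp σ hσ)] at hW
  linarith

/-- a time with small soliton defect -/
theorem cs_mvt (h : H.Ok) {a t ε τ0 s η : ℝ} {z : M} {v : ℝ → M → ℝ} (c : H.CS a t z ε τ0 v)
    (hs : 0 < s) (ha : a ≤ t - 2 * s ^ 2) (hd : H.drop t τ0 v s ≤ η) :
    ∃ σ ∈ Icc (t - 2 * s ^ 2) (t - s ^ 2), 2 * s ^ 4 *
      ∫ x, H.sol σ (τ0 + t - σ) (pot (τ0 + t - σ) (v σ)) x * v σ x ∂H.vol σ ≤ η := by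
  have s2 : 0 < s ^ 2 := by positivity
  have hD := h.alg.W_dt h.int h.evo c.st c.conj (cs_pos h c) c.t0
  have sub : Icc (t - 2 * s ^ 2) (t - s ^ 2) ⊆ Icc a t := Icc_subset_Icc ha (by linarith)
  obtain ⟨σ, hσ, e⟩ := exists_hasDerivAt_eq_slope (H.Wv t τ0 v) (fun σ => 2 * (τ0 + t - σ) *
      ∫ x, H.sol σ (τ0 + t - σ) (pot (τ0 + t - σ) (v σ)) x * v σ x ∂H.vol σ)
    (show t - 2 * s ^ 2 < t - s ^ 2 by linarith)
    (fun σ hσ => (hD σ (sub hσ)).continuousWithinAt.mono sub)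
    (fun σ hσ => (hD σ (sub (Ioo_subset_Icc_self hσ))).hasDerivAt
      (Icc_mem_nhds (by linarith [hσ.1]) (by linarith [hσ.2])))
  refine ⟨σ, Ioo_subset_Icc_self hσ, ?_⟩
  have hm := sub (Ioo_subset_Icc_self hσ)
  have hτ : s ^ 2 ≤ τ0 + t - σ := by linarith [c.t0, hσ.2]
  have h0 : 0 ≤ ∫ x, H.sol σ (τ0 + t - σ) (pot (τ0 + t - σ) (v σ)) x * v σ x ∂H.vol σ :=
    int_nonneg' fun x => mul_nonneg (h.evo.sol_nonneg σ (c.st.mem hm) _ (by linarith)
      (h.alg.s0_pot (cs_s0 h c hm) (cs_pos h c σ hm) _) x) (cs_pos h c σ hm x).le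
  rw [show t - s ^ 2 - (t - 2 * s ^ 2) = s ^ 2 by ring, eq_div_iff s2.ne'] at e
  unfold drop at hd
  have := mul_le_mul_of_nonneg_right hτ (mul_nonneg h0 s2.le)
  nlinarith

/-- volume of the region at the times of the window -/
theorem win_vol (h : H.Ok) (C : H.COut) {t0 A : ℝ} (h0 : 0 < t0) (hA : 1 ≤ A) : ∃ V, 0 ≤ V ∧
    ∀ {t s : ℝ} {z : M}, 0 < s → s ≤ 1 / 2 → t0 ≤ t - 2 * s ^ 2 → t < H.T →
      ∀ r ∈ Icc (t - 2 * s ^ 2) t, ∀ {g : M → ℝ} {m : ℝ}, 0 ≤ m → (∀ x, 0 ≤ g x) →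
        (∀ x, g x ≤ m) → (∀ x, g x ≠ 0 → H.d t z x ≤ A * s) →
        ∫ x, g x ∂H.vol r ≤ m * (V * s ^ 4) := by
  obtain ⟨K, hK⟩ := h.evo.R_bd
  obtain ⟨Cv, hCv, hV⟩ := C.up t0 h0
  refine ⟨Real.exp |K| * (Cv * (2 * A) ^ 4), by positivity,
    fun {t s z} hs s1 ht0 hT r hr g m hm g0 g1 g2 => ?_⟩
  have s2 : 0 < s ^ 2 := by positivity
  have ht : t ∈ Ioo 0 H.T := ⟨by linarith, hT⟩
  have hr' : r ∈ Ioo 0 H.T := ⟨by linarith [hr.1], by linarith [hr.2]⟩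
  have := h.int.fin r hr'
  have k := N207.E.int_le_vol (μ := H.vol r) (isOpen_B h.dist ht z (2 * A * s)).measurableSet g0
    (fun x _ => g1 x) fun x hx => by
      by_contra hg
      have := g2 x hg
      exact hx (show H.d t z x < 2 * A * s by nlinarith)
  refine k.trans (mul_le_mul_of_nonneg_left ?_ hm)
  have k2 := N207.E.vol_cmp h.int (abs_nonneg K) (fun t ht x => (hK t ht x).trans (le_abs_self K))
    hr' ht (abs_le.2 ⟨by nlinarith [hr.1], by linarith [hr.2]⟩) (H.B t z (2 * A * s))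
  have k3 := hV t ⟨by linarith, hT⟩ z (2 * A * s) (by positivity)
  calc _ ≤ Real.exp |K| * (Cv * (2 * A * s) ^ 4) := k2.trans (by gcongr)
    _ = _ := by ring

theorem gam_mul_le (A : H.Alg) {t : ℝ} (ht : t ∈ Ioo 0 H.T) {u w : M → ℝ} (hu : H.S0 u)
    (hw : H.S0 w) (x : M) : H.gam t (fun y => u y * w y) (fun y => u y * w y) x ≤
      2 * u x ^ 2 * H.gam t w w x + 2 * w x ^ 2 * H.gam t u u x := by
  rw [A.gam_mul t ht hu hw (A.s0_mul hu hw), A.gam_mul' ht hu hw hw, A.gam_mul' ht hu hw hu,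
    A.gam_symm t ht hw hu]
  have h1 := A.gam_sq ht hu hw x
  have h2 := A.gam_nonneg t ht hu x
  have h3 := A.gam_nonneg t ht hw x
  have h4 : (u x * w x * H.gam t u w x) ^ 2 ≤
      (u x ^ 2 * H.gam t w w x) * (w x ^ 2 * H.gam t u u x) := by
    have := mul_le_mul_of_nonneg_left h1 (sq_nonneg (u x * w x))
    nlinarith
  have h5 : 2 * (u x * w x * H.gam t u w x) ≤
      u x ^ 2 * H.gam t w w x + w x ^ 2 * H.gam t u u x := by
    have p1 : 0 ≤ u x ^ 2 * H.gam t w w x := by positivity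
    have p2 : 0 ≤ w x ^ 2 * H.gam t u u x := by positivity
    nlinarith [sq_nonneg (u x ^ 2 * H.gam t w w x - w x ^ 2 * H.gam t u u x),
      abs_le_of_sq_le_sq' (show (2 * (u x * w x * H.gam t u w x)) ^ 2 ≤
        (u x ^ 2 * H.gam t w w x + w x ^ 2 * H.gam t u u x) ^ 2 by
          nlinarith [sq_nonneg (u x ^ 2 * H.gam t w w x - w x ^ 2 * H.gam t u u x)])
        (add_nonneg p1 p2)]
  nlinarith

end Crest.Agent.N207.Ge

end
end

-- ▼ part N207/G/EnS2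
section

/-!
# Row 207, block G, entropy half (helper23): the smoothing step
-/

set_option autoImplicit false
set_option linter.dupNamespace false
set_option linter.unusedSectionVars false
open Set MeasureTheory Filter Topology
open scoped ContDiff

noncomputable section

namespace Crest.Agent.N207.Ge

open HC

variable {M : Type*} [TopologicalSpace M] [CompactSpace M] [MeasurableSpace M]
  [OpensMeasurableSpace M] {H : HC M}

theorem ph1 {χ τ g v c s : ℝ} (χ0 : 0 ≤ χ) (χ1 : χ ≤ 1) (g0 : 0 ≤ g) (hc : 0 < c) (hs : 0 < s)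
    (v0 : 0 ≤ v) (hv : χ ≠ 0 → c / s ^ 4 ≤ v) : χ ^ 2 * (τ * g) ≤ |τ| * s ^ 4 / c * (g * v) := by
  by_cases h : χ = 0
  · rw [h]; simp only [ne_eq, OfNat.ofNat_ne_zero, not_false_eq_true, zero_pow, zero_mul]
    positivity
  · have h1 : χ ^ 2 ≤ 1 := by nlinarith
    have h2 : 1 ≤ s ^ 4 / c * v := by
      have := hv h
      rw [div_le_iff₀ (by positivity)] at this
      rw [div_mul_eq_mul_div, le_div_iff₀ hc]; linarith
    calc χ ^ 2 * (τ * g) ≤ 1 * (|τ| * g) := by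
          refine (mul_le_mul_of_nonneg_left (mul_le_mul_of_nonneg_right (le_abs_self τ) g0)
            (sq_nonneg χ)).trans (mul_le_mul_of_nonneg_right h1 (by positivity))
      _ ≤ s ^ 4 / c * v * (|τ| * g) := by gcongr
      _ = _ := by ring

set_option maxHeartbeats 1000000 in
/-- the data of the smoothing step -/
theorem ghd (h : H.Ok) (C : H.COut) {t0 A K : ℝ} (h0 : 0 < t0) (hA : 1 ≤ A) (hK : 0 ≤ K) :
    ∃ F, 1 ≤ F ∧ ∀ {a t ε τ0 s B δ η : ℝ} {z : M} {v : ℝ → M → ℝ} {χ : M → ℝ}, t0 ≤ a →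
      H.CS a t z ε τ0 v → 0 < s → s ≤ 1 / 2 → a ≤ t - 2 * s ^ 2 → ε ≤ s ^ 2 → H.S0 χ →
      (∀ x, 0 ≤ χ x ∧ χ x ≤ 1) → (∀ x, χ x ≠ 0 → H.d t z x ≤ A * s) →
      (∀ x, H.gam t χ χ x ≤ K / s ^ 2) → 0 ≤ δ → δ ≤ 1 / 4 → 0 ≤ η →
      H.Reg t s B δ {x | χ x ≠ 0} → H.drop t τ0 v s ≤ η → ∃ σ, ∀ θ, 0 < θ → θ ≤ 1 / 2 →
        ∃ u, HD H t s σ θ F B δ (F * (η + δ)) χ u ∧ u σ = fun x => χ x * Fv t τ0 v σ x := by
  have Al := h.alg
  have I := h.int
  have E := h.evo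
  obtain ⟨F0, hF0, hp⟩ := gPot h C t0 h0
  obtain ⟨F1, hF1, hp⟩ := hp A hA
  obtain ⟨c, hc, hl⟩ := cs_lo h C h0 hA
  obtain ⟨V, hV, hvol⟩ := win_vol h C h0 hA
  obtain ⟨R, hR⟩ := E.R_bd
  have hR' : ∀ t ∈ Ioo 0 H.T, ∀ x, |H.R t x| ≤ |R| := fun t ht x => (hR t ht x).trans (le_abs_self R)
  have R0 := abs_nonneg R
  set F2 := F0 + F1
  set F3 := 96 / c * (1 + (|R| + F0 + 4)) + 8 * F2 ^ 2 * K * V
  have hF2 : 0 ≤ F2 := by positivity
  have hF3 : 0 ≤ F3 := by positivity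
  have hc1 : 0 ≤ 144 / c := by positivity
  refine ⟨1 + F2 + F3 + 288 * V + 144 / c, by linarith, ?_⟩
  set F := 1 + F2 + F3 + 288 * V + 144 / c
  intro a t ε τ0 s B δ η z v χ ha cs hs s1 hw hε sχ χ01 χA χK δ0 δ1 η0 reg hd
  obtain ⟨σ, hσ, hsol⟩ := cs_mvt h cs hs hw hd
  refine ⟨σ, fun θ θ0 θ1 => ?_⟩
  have s2 : 0 < s ^ 2 := by positivity
  have s4 : s ^ 2 ≤ 1 / 4 := by nlinarith
  have hθs : 0 < θ * s ^ 2 := by positivity
  have hθs' : θ * s ^ 2 ≤ 1 / 2 * s ^ 2 := by gcongr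
  have st : H.St (t - 2 * s ^ 2) t := cs.st.mono hw (by linarith) le_rfl
  have aσ : a ≤ σ := hw.trans hσ.1
  have hm : σ ∈ Icc a t := ⟨aσ, by linarith [hσ.2]⟩
  have hm' : σ ∈ Icc (t - 2 * s ^ 2) t := ⟨hσ.1, hm.2⟩
  have ht := cs.st.mem hm
  have st' : H.St σ (σ + θ * s ^ 2) := st.mono hσ.1 (by linarith) (by linarith [hσ.2])
  have sF := s0_Fv h cs hm
  have sv := cs_s0 h cs hm
  have pv := cs_pos h cs σ hm
  obtain ⟨τ1, τ2⟩ := cs_tau cs hε hσ
  obtain ⟨u, hu, u0⟩ := h.solv.heat st' (Al.s0_mul sχ sF)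
  have hF := hp ha cs hs s1 hε σ hσ aσ
  have hlo := hl ha cs hs s1 hε σ hσ aσ
  have hvl := fun r hr => @hvol t s z hs s1 (ha.trans hw) cs.st.2.2 r hr
  have bF : ∀ x, χ x ≠ 0 → |Fv t τ0 v σ x| ≤ F2 * s ^ 2 := fun x hx =>
    abs_le.2 ⟨by nlinarith [(hF x).1], by nlinarith [(hF x).2 (χA x hx)]⟩
  have hdir := cs_dir h (L := F0) hR' cs hm fun x => by
    have := (hF x).1
    unfold Fv at this
    by_contra hh
    push Not at hh
    nlinarith
  set τ := τ0 + t - σ with hτ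
  have τ0' : 0 < τ := by linarith
  set f := pot τ (v σ) with hf
  have sf : H.S0 f := Al.s0_pot sv pv τ
  have eF : Fv t τ0 v σ = fun y => 4 * τ * f y + 0 := by
    funext y; simp only [Fv, add_zero, hτ, hf]
  refine ⟨u, ⟨st, hs, s1, hσ, θ0, θ1, hu, δ0, δ1, by positivity, reg, sχ, fun x => (χ01 x).1,
    fun x => ?_, ?_, fun r hr => ?_, fun φ sφ φ01 φχ => ?_⟩, u0⟩
  · rw [u0]
    by_cases hx : χ x = 0
    · simp only [hx, zero_mul, abs_zero]; positivity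
    · rw [abs_mul, abs_of_nonneg (χ01 x).1]
      have h1 : F2 * s ^ 2 ≤ F * s ^ 2 := by gcongr; linarith
      nlinarith [(χ01 x).2, bF x hx, abs_nonneg (Fv t τ0 v σ x), (χ01 x).1]
  · rw [u0]
    have s1' := Al.s0_cmul (96 * s ^ 6 / c) (Al.s0_cmul τ (Al.s0_mul (Al.s0_gam ht sf sf) sv))
    have s2' := Al.s0_mul (Al.s0_cmul 2 (Al.s0_pow 2 sF)) (Al.s0_gam ht sχ sχ)
    have k := int_mono Al I ht (Al.s0_gam ht (Al.s0_mul sχ sF) (Al.s0_mul sχ sF))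
      (Al.s0_add s1' s2') fun x => by
        refine (gam_mul_le Al ht sχ sF x).trans (add_le_add ?_ le_rfl)
        rw [eF, gam_aff2 Al ht sf]
        have g0 := Al.gam_nonneg σ ht sf x
        have k1 := ph1 (τ := τ) (χ01 x).1 (χ01 x).2 g0 hc hs (pv x).le fun hx => hlo x (χA x hx)
        rw [abs_of_pos τ0'] at k1
        have k2 : 0 ≤ χ x ^ 2 * (τ * H.gam σ f f x) := by positivity
        calc _ = 32 * τ * (χ x ^ 2 * (τ * H.gam σ f f x)) := by ring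
          _ ≤ 32 * (3 * s ^ 2) * (τ * s ^ 4 / c * (H.gam σ f f x * v σ x)) := by gcongr
          _ = _ := by ring
    rw [int_add Al I ht s1' s2', integral_const_mul, integral_const_mul] at k
    have k2 := hvl σ hm' (g := fun x => 2 * Fv t τ0 v σ x ^ 2 * H.gam σ χ χ x)
      (m := 2 * (F2 * s ^ 2) ^ 2 * (4 * (K / s ^ 2))) (by positivity)
      (fun x => mul_nonneg (by positivity) (Al.gam_nonneg σ ht sχ x)) (fun x => ?_) fun x hx => ?_
    · have k3 : 96 * s ^ 6 / c * (τ * ∫ x, H.gam σ f f x * v σ x ∂H.vol σ) ≤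
          96 * s ^ 6 / c * (1 + (|R| + F0 + 4)) := by
        gcongr
        have : τ * |R| ≤ 1 * |R| := by gcongr; linarith
        linarith
      have e1 : 96 * s ^ 6 / c * (1 + (|R| + F0 + 4)) +
          2 * (F2 * s ^ 2) ^ 2 * (4 * (K / s ^ 2)) * (V * s ^ 4) = F3 * s ^ 6 := by
        simp only [F3]; field_simp; ring
      have k4 : F3 * s ^ 6 ≤ F * s ^ 6 := by gcongr; linarith
      linarith
    · by_cases hx : χ x = 0
      · rw [(Al.at_min ht sχ (x := x) (Eventually.of_forall fun y => hx ▸ (χ01 y).1)).2]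
        simp only [mul_zero]; positivity
      · have k5 := Ge.gam_cmp Al E st sχ (fun ρ hρ => (reg ρ hρ x hx).2.1)
          (by rw [show δ / s ^ 2 * (t - (t - 2 * s ^ 2)) = 2 * δ by field_simp; ring]; linarith)
          hm' (right_mem_Icc.2 st.2.1.le)
        have k6 : Fv t τ0 v σ x ^ 2 ≤ (F2 * s ^ 2) ^ 2 := sq_le_sq' (abs_le.1 (bF x hx)).1
          (abs_le.1 (bF x hx)).2
        have := Al.gam_nonneg σ ht sχ x
        have k7 : H.gam σ χ χ x ≤ 4 * (K / s ^ 2) := by linarith [χK x]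
        gcongr
    · refine χA x fun hx' => hx ?_
      rw [(Al.at_min ht sχ (x := x) (Eventually.of_forall fun y => hx' ▸ (χ01 y).1)).2, mul_zero]
  · have k := hvl r hr (g := χ) (m := 1) zero_le_one (fun x => (χ01 x).1) (fun x => (χ01 x).2) χA
    have : V * s ^ 4 ≤ F * s ^ 4 := by gcongr; linarith
    linarith
  · have φχ' : ∀ x, φ x ≠ 0 → χ x ≠ 0 := fun x hx => by
      rw [(φχ x hx).eq_of_nhds]; exact one_ne_zero
    have ssol : H.S0 (H.sol σ τ f) :=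
      Al.s0_add (Al.s0_sub (Al.s0_add (Al.s0_add (Al.s0_hh ht sf) (Al.s0_cmul 2 (Al.s0_rh ht sf)))
        (Al.s0_Q ht 0)) (Al.s0_div (Al.s0_add (Al.s0_R ht) (Al.s0_lap ht sf)) (Al.s0_const τ)
          fun _ => τ0')) (Al.s0_const _)
    have s1' := Al.s0_cmul (288 * s ^ 8 / c) (Al.s0_mul ssol sv)
    have s2' := Al.s0_mul (Al.s0_pow 2 sφ) (Al.s0_cmul (32 * τ ^ 2) (Al.s0_Q ht 0))
    have su : H.S0 (u σ) := u0 ▸ Al.s0_mul sχ sF
    have k := int_mono Al I ht (Al.s0_mul (Al.s0_pow 2 sφ) (s0_Pc Al ht su 2))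
      (Al.s0_add s1' s2') fun x => by
        have g0 := E.sol_nonneg σ ht τ τ0' sf x
        have k1 := ph1 (τ := 1) (φ01 x).1 (φ01 x).2 g0 hc hs (pv x).le
          fun hx => hlo x (χA x (φχ' x hx))
        have k0 : φ x ^ 2 * H.Pc 2 σ (u σ) x ≤
            φ x ^ 2 * (32 * τ ^ 2 * (H.sol σ τ f x + H.Q 0 σ x)) := by
          by_cases hx : φ x = 0
          · simp [hx]
          · have e : u σ =ᶠ[𝓝 x] fun y => 4 * τ * f y + 0 := by
              rw [u0, ← eF]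
              filter_upwards [φχ x hx] with y hy
              rw [hy, one_mul]
            rw [Pc_local Al E ht su (s0_aff Al sf _ _) 2 e]
            exact mul_le_mul_of_nonneg_left (Pc_le_sol Al E ht τ0' sf x) (sq_nonneg _)
        have k2 : 0 ≤ φ x ^ 2 * (1 * H.sol σ τ f x) := by positivity
        have k3 : 32 * τ ^ 2 * (φ x ^ 2 * (1 * H.sol σ τ f x)) ≤
            32 * (3 * s ^ 2) ^ 2 * (|1| * s ^ 4 / c * (H.sol σ τ f x * v σ x)) := by gcongr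
        have e3 : 32 * (3 * s ^ 2) ^ 2 * (|1| * s ^ 4 / c * (H.sol σ τ f x * v σ x)) =
            288 * s ^ 8 / c * (H.sol σ τ f x * v σ x) := by rw [abs_one]; ring
        nlinarith
    rw [int_add Al I ht s1' s2', integral_const_mul] at k
    have k2 := hvl σ hm' (g := fun x => φ x ^ 2 * (32 * τ ^ 2 * H.Q 0 σ x)) (m := 288 * δ)
      (by positivity) (fun x => mul_nonneg (sq_nonneg _)
        (mul_nonneg (by positivity) (E.Q_nonneg 0 σ ht x))) (fun x => ?_) fun x hx => ?_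
    · have k3 : 288 * s ^ 8 / c * ∫ x, H.sol σ τ f x * v σ x ∂H.vol σ ≤ 144 / c * s ^ 4 * η :=
        calc _ = 144 / c * s ^ 4 * (2 * s ^ 4 * ∫ x, H.sol σ τ f x * v σ x ∂H.vol σ) := by ring
          _ ≤ _ := by gcongr
      have k4 : 144 / c * (η * s ^ 4) ≤ F * (η * s ^ 4) := by gcongr; linarith
      have k5 : 288 * V * (δ * s ^ 4) ≤ F * (δ * s ^ 4) := by gcongr; linarith
      nlinarith
    · by_cases hx : φ x = 0
      · simp only [hx, ne_eq, OfNat.ofNat_ne_zero, not_false_eq_true, zero_pow, zero_mul]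
        positivity
      · have q1 := (reg σ hm' x (φχ' x hx)).2.1
        have q0 := E.Q_nonneg 0 σ ht x
        have q2 : H.Q 0 σ x ≤ (δ / s ^ 2) ^ 2 := by
          rw [← Real.sq_sqrt q0]; gcongr
        have q3 : φ x ^ 2 ≤ 1 := by nlinarith [(φ01 x).1, (φ01 x).2]
        calc _ ≤ 1 * (32 * (3 * s ^ 2) ^ 2 * (δ / s ^ 2) ^ 2) := by gcongr
          _ = 288 * δ * δ := by field_simp; ring
          _ ≤ 288 * δ * 1 := by gcongr; linarith
          _ = _ := mul_one _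
    · exact χA x (φχ' x fun hx' => hx (by simp [hx']))

theorem small_theta {l γ θ0 : ℝ} (hl : 0 < l) (hγ : 0 < γ) (h0 : 0 < θ0) :
    ∃ θ, 0 < θ ∧ θ ≤ θ0 ∧ Real.exp (-(l / (4 * √θ))) ≤ γ * θ ^ 3 := by
  have h1 := (Real.tendsto_pow_mul_exp_neg_atTop_nhds_zero 6).eventually
    (ge_mem_nhds (show 0 < γ * (l / 4) ^ 6 by positivity))
  have q := Real.sqrt_pos.2 h0
  obtain ⟨y, hy, hy2⟩ := (h1.and (eventually_ge_atTop (l / (4 * √θ0)))).exists
  have y0 : 0 < y := lt_of_lt_of_le (by positivity) hy2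
  refine ⟨(l / (4 * y)) ^ 2, by positivity, ?_, ?_⟩
  · rw [← Real.sq_sqrt h0.le]
    gcongr
    rw [div_le_iff₀ (by positivity)] at hy2 ⊢
    linarith
  · rw [Real.sqrt_sq (by positivity), show l / (4 * (l / (4 * y))) = y by field_simp]
    calc _ = y ^ 6 * Real.exp (-y) / y ^ 6 := by field_simp
      _ ≤ γ * (l / 4) ^ 6 / y ^ 6 := by gcongr
      _ = _ := by field_simp

set_option maxHeartbeats 1000000 in
theorem gSmooth (h : H.Ok) (C : H.COut) (He : H.Hes) : H.GSmooth := by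
  intro t0 h0 A hA l hl B hB K hK δ hδ
  have Al := h.alg
  have I := h.int
  have E := h.evo
  obtain ⟨F, hF, hhd⟩ := ghd h C h0 hA hK
  have F0 : 0 ≤ F := by linarith
  obtain ⟨Cg, hCg, hG⟩ := exists_HG Al He
  obtain ⟨F1, hF1, hw⟩ := wen h hCg F0 hB hl
  obtain ⟨F2, θ0, hF2, hθ0, hpt⟩ := pt h He C.kerC h0 hCg F0 hB hl
  obtain ⟨R, hR⟩ := E.R_bd
  have hR' : ∀ t ∈ Ioo 0 H.T, ∀ x, |H.R t x| ≤ |R| := fun t ht x => (hR t ht x).trans (le_abs_self R)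
  have R0 := abs_nonneg R
  set Z := F2 ^ 2 + Cg * F1 + Cg * F ^ 3
  have hZ : 0 < Z := by positivity
  set c1 := Real.exp |R| * (4 * Real.exp (1 + 2 * |R|) * F)
  have hc1 : 0 < c1 := by positivity
  obtain ⟨θ, θp, θ1, hE⟩ := small_theta (γ := δ / Z / 2) (θ0 := min (min θ0 (1 / 2)) (δ / c1)) hl
    (by positivity) (by positivity)
  have θa : θ ≤ θ0 := θ1.trans ((min_le_left _ _).trans (min_le_left _ _))
  have θb : θ ≤ 1 / 2 := θ1.trans ((min_le_left _ _).trans (min_le_right _ _))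
  have θc : θ ≤ δ / c1 := θ1.trans (min_le_right _ _)
  set e := min (1 / 4) (δ / Z / 2 * θ ^ 3 / (3 * F)) with he
  have e0 : 0 < e := by positivity
  have e2 : 3 * F * e ≤ δ / Z / 2 * θ ^ 3 := by
    have := min_le_right (1 / 4) (δ / Z / 2 * θ ^ 3 / (3 * F))
    rw [← he, le_div_iff₀ (by positivity)] at this; linarith
  refine ⟨e, e, e0, e0, min_le_left _ _, ?_⟩
  intro a t ε τ0 s r z x0 v χ ha cs hs s1 hwin hε sχ χ01 χA χK reg hd hχ
  obtain ⟨σ, hσ⟩ := hhd ha cs hs s1 hwin hε sχ χ01 χA χK e0.le (min_le_left _ _) e0.le reg hd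
  obtain ⟨u, D, u0⟩ := hσ θ θp θb
  obtain ⟨G, P', g⟩ := hG D.st' D.heat
  obtain ⟨φ, sφ, φ01, φ1, φχ, -, ρ, hρ, hGi⟩ := hw D g x0 r hχ
  have s2 : 0 < s ^ 2 := by positivity
  have hθs : 0 < θ * s ^ 2 := by positivity
  have hρ' : ρ ∈ Icc σ (σ + θ * s ^ 2) := ⟨by linarith [hρ.1], hρ.2⟩
  have hσ' : σ ∈ Icc σ (σ + θ * s ^ 2) := left_mem_Icc.2 D.win.1.le
  have tρ := D.st'.mem hρ'
  have tσ := D.st'.mem hσ'
  have tt := D.st.mem D.tm
  have su := Al.sm_s0 D.heat.1 ρ hρ'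
  have su0 := Al.sm_s0 D.heat.1 σ hσ'
  set X := F * (e + e) + e + Real.exp (-(l / (4 * √θ))) with hX
  have X0 : 0 ≤ X := by positivity
  have X1 : Z * X ≤ δ * θ ^ 3 := by
    have : X ≤ δ / Z * θ ^ 3 := by nlinarith
    calc Z * X ≤ Z * (δ / Z * θ ^ 3) := by gcongr
      _ = _ := by field_simp
  have θ3 : θ ^ 3 ≤ θ ^ 2 := by nlinarith [sq_nonneg θ]
  have θ2 : θ ^ 2 ≤ θ := by nlinarith
  refine ⟨σ, D.σ1, ρ, D.sub hρ', u ρ, fun x => u σ x - u ρ x, su, Al.s0_sub su0 su,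
    fun x hx => ?_, ?_, fun x hx => ?_, ?_⟩
  · rw [u0]; simp only [hx]; ring
  · have k := int_time Al I R0 hR' tρ tσ (abs_le.2 ⟨by linarith [hρ'.2, D.win.2.2],
      by linarith [hρ'.1]⟩) (Al.s0_pow 2 (Al.s0_sub su0 su)) fun x => sq_nonneg _
    have k2 := l2_move Al I E D.st' R0 hR' (by linarith [D.win.2.2]) D.heat ρ hρ'
    have e1 : ∀ x, (u σ x - u ρ x) ^ 2 = (u ρ x - u σ x) ^ 2 := fun x => by ring
    simp_rw [e1] at k ⊢
    have k3 := D.en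
    calc _ ≤ Real.exp |R| * (4 * Real.exp (1 + 2 * |R|) * (σ + θ * s ^ 2 - σ) * (F * s ^ 6)) := by
          refine k.trans (mul_le_mul_of_nonneg_left (k2.trans ?_) (Real.exp_pos _).le)
          have : 0 ≤ σ + θ * s ^ 2 - σ := by linarith
          gcongr
      _ = θ * c1 * s ^ 8 := by simp only [c1]; ring
      _ ≤ δ / c1 * c1 * s ^ 8 := by gcongr
      _ = _ := by field_simp
  · obtain ⟨p1, p2⟩ := hpt D g (ha.trans hwin) θa x hx ρ hρ
    rw [← hX] at p1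
    have p0 := Pc_nonneg E tt su 2 x
    have z1 : F2 ^ 2 * X ≤ Z * X := by
      gcongr; simp only [Z]; have : 0 ≤ Cg * F1 + Cg * F ^ 3 := by positivity
      linarith
    constructor
    · refine p1.trans ?_
      rw [div_le_iff₀ (by positivity)]
      have : F2 * X ≤ F2 ^ 2 * X := by gcongr; nlinarith
      nlinarith
    · calc _ ≤ F2 / θ * s ^ 2 * (F2 * X / θ ^ 2) := by gcongr
        _ = F2 ^ 2 * X / θ ^ 3 * s ^ 2 := by field_simp
        _ ≤ δ * θ ^ 3 / θ ^ 3 * s ^ 2 := by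
            have := z1.trans X1
            gcongr ?_ / _ * _
        _ = _ := by field_simp
  · have sG := Al.sm_s0 g.sG ρ hρ'
    have s1' := Al.s0_cmul Cg (Al.s0_mul (Al.s0_pow 2 sφ) sG)
    have s2' := Al.s0_cmul (Cg * ((e / s ^ 2) ^ 2 * (F ^ 2 / θ * s ^ 2))) sχ
    have sP := Al.s0_mul (Al.s0_N tρ 0) (Al.s0_gam tρ su su)
    have k := setInt_le_wt h tρ (isOpen_B h.dist tt x0 r) (Al.s0_pow 2 sφ) sP
      (fun y => sq_nonneg _) (fun y => mul_nonneg (E.N_nonneg 0 ρ tρ y) (Al.gam_nonneg ρ tρ su y))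
      fun y hy => by rw [φ1 y hy]; norm_num
    have k2 := int_mono Al I tρ (Al.s0_mul (Al.s0_pow 2 sφ) sP) (Al.s0_add s1' s2') fun y => by
      by_cases hy : φ y = 0
      · simp only [hy, ne_eq, OfNat.ofNat_ne_zero, not_false_eq_true, zero_pow, zero_mul, mul_zero,
          zero_add]
        have := (χ01 y).1
        positivity
      · have q1 := (D.reg ρ (D.sub hρ') y (by rw [mem_ofPred_eq, φχ y hy]; exact one_ne_zero)).2.1
        have q0 := E.Q_nonneg 0 ρ tρ y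
        have q2 : H.Q 0 ρ y ≤ (e / s ^ 2) ^ 2 := by rw [← Real.sq_sqrt q0]; gcongr
        have q3 : φ y ^ 2 ≤ 1 := by nlinarith [(φ01 y).1, (φ01 y).2]
        have q4 := D.gam_le Al E hρ y
        have q5 := Al.gam_nonneg ρ tρ su y
        have q6 := mul_le_mul_of_nonneg_left (g.ric ρ hρ' y) (sq_nonneg (φ y))
        have q7 : φ y ^ 2 * (H.Q 0 ρ y * H.gam ρ (u ρ) (u ρ) y) ≤
            1 * ((e / s ^ 2) ^ 2 * (F ^ 2 / θ * s ^ 2)) := by gcongr
        have q8 := mul_le_mul_of_nonneg_left q7 hCg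
        rw [φχ y hy]
        linarith
    rw [int_add Al I tρ s1' s2', integral_const_mul, integral_const_mul] at k2
    have k3 := D.vol ρ (D.sub hρ')
    have x2 : Real.exp (-(l / (2 * √θ))) ≤ Real.exp (-(l / (4 * √θ))) := by
      have := Real.sqrt_pos.2 θp
      gcongr; norm_num
    have k4 : ∫ x, φ x ^ 2 * G ρ x ∂H.vol ρ ≤ F1 * X / θ * s ^ 2 := hGi.trans (by
      rw [hX]; gcongr)
    have e1 : e ≤ 1 := (min_le_left _ _).trans (by norm_num)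
    have e3 : e ^ 2 ≤ X := by
      have : 0 ≤ F * (e + e) + Real.exp (-(l / (4 * √θ))) := by positivity
      nlinarith
    calc _ ≤ Cg * (F1 * X / θ * s ^ 2) +
          Cg * ((e / s ^ 2) ^ 2 * (F ^ 2 / θ * s ^ 2)) * (F * s ^ 4) := by
          refine k.trans (k2.trans ?_); gcongr
      _ = (Cg * F1 * X + Cg * F ^ 3 * e ^ 2) / θ * s ^ 2 := by field_simp
      _ ≤ (δ * θ) / θ * s ^ 2 := by
          gcongr
          have : Cg * F ^ 3 * e ^ 2 ≤ Cg * F ^ 3 * X := by gcongr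
          have : 0 ≤ F2 ^ 2 * X := by positivity
          have : δ * θ ^ 3 ≤ δ * θ := by gcongr; linarith
          simp only [Z] at X1
          nlinarith
      _ = _ := by field_simp

end Crest.Agent.N207.Ge

end
end

-- ▼ part N207/G/EnG
section

/-!
# Row 207, block G, entropy half (helper23): a good scale
-/

set_option autoImplicit false
set_option linter.dupNamespace false
set_option linter.unusedSectionVars false
open Set MeasureTheory Filter Topology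
open scoped ContDiff

noncomputable section

namespace Crest.Agent.N207.Ge

open HC

variable {M : Type*} [TopologicalSpace M] [CompactSpace M] [MeasurableSpace M]
  [OpensMeasurableSpace M] {H : HC M}

theorem reg_scale {t s s' B δ δ' : ℝ} {Ω Ω' : Set M} (h : H.Reg t s B δ Ω) (h0 : 0 < s')
    (h1 : s' ≤ s) (hB : 0 ≤ B) (hδ : δ ≤ δ') (hδ' : 0 ≤ δ') (hΩ : Ω' ⊆ Ω) :
    H.Reg t s' B δ' Ω' := fun σ hσ x hx => by
  obtain ⟨k1, k2, k3⟩ := h σ ⟨by nlinarith [hσ.1], hσ.2⟩ x (hΩ hx)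
  exact ⟨k1.trans (by gcongr), k2.trans (by gcongr), k3.trans (by gcongr)⟩

theorem pc_mono {t τ0 s θ A δ θ' A' δ' σ μ : ℝ} {z : M} {v : ℝ → M → ℝ} {b g : M → ℝ}
    (h : H.PC t z τ0 v s θ A δ σ μ b g) (hs : 0 ≤ s) (h1 : θ ≤ θ') (h2 : A' ≤ A) (h3 : δ ≤ δ') :
    H.PC t z τ0 v s θ' A' δ' σ μ b g :=
  have k : H.An t z (θ' * s) (A' * s) ⊆ H.An t z (θ * s) (A * s) := fun _ hx =>
    ⟨le_trans (by gcongr) hx.1, hx.2.trans (by gcongr)⟩
  ⟨h.σ1, h.sb, h.sg, fun x hx => h.eq x (k hx), h.l2.trans (by gcongr),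
    fun x hx => (h.hess x (k hx)).trans h3, fun x hx => (h.gam x (k hx)).trans (by gcongr)⟩

theorem d_nn (D : H.Dist) {t : ℝ} (ht : t ∈ Ioo 0 H.T) (x y : M) : 0 ≤ H.d t x y := by
  have := D.tri t ht x y x
  rw [D.self t ht, D.symm t ht y x] at this
  linarith

set_option maxHeartbeats 1000000 in
theorem gGood (h : H.Ok) (C : H.COut) (He : H.Hes) (hCut : H.GCut) (hOsc : H.GOsc)
    (hSand : H.GSand) : H.GGood := by
  intro t0 h0 κ hκ
  have Al := h.alg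
  have E := h.evo
  have D := h.dist
  obtain ⟨C1, hC1, hS⟩ := hSand t0 h0 κ hκ
  obtain ⟨q, Λ, βo, q0, q1, hΛ, hβo, hO⟩ := hOsc t0 h0
  obtain ⟨Kc, hKc, hC⟩ := hCut
  have q8 : 0 < 8 / q := by positivity
  obtain ⟨Cc, hCc⟩ : ∃ Cc, Cc = C1 + 8 / q + (34 + 2 * Λ) := ⟨_, rfl⟩
  refine ⟨Cc, by linarith, fun θ A B δ θ0 θ1 hA hB hδ => ?_⟩
  obtain ⟨βs, hβs, hS⟩ := hS (θ / 2) (by positivity) (by linarith)
  obtain ⟨A1, hA1⟩ : ∃ A1, A1 = 16 * A + Λ := ⟨_, rfl⟩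
  have A10 : 1 ≤ A1 := by linarith
  obtain ⟨Ao, hAo⟩ : ∃ Ao, Ao = A1 * 2 / θ := ⟨_, rfl⟩
  have Ao1 : Λ ≤ Ao := by
    have : Λ * θ ≤ Λ * 1 := by gcongr
    rw [hAo, le_div_iff₀ θ0]; linarith
  obtain ⟨δ2, hδ2, d1, d2⟩ : ∃ δ2, 0 < δ2 ∧ δ2 ≤ δ ∧ δ2 ≤ βs :=
    ⟨_, lt_min hδ hβs, min_le_left _ _, min_le_right _ _⟩
  have AΛ : 0 < Ao + Λ := by linarith
  obtain ⟨γ, hγ⟩ : ∃ γ, γ = δ2 / (Ao + Λ) := ⟨_, rfl⟩
  have γ0 : 0 < γ := hγ ▸ div_pos hδ2 AΛ
  have qθ : 0 < q * θ := by positivity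
  have qθ1 : q * θ ≤ 1 / 4 * θ := by gcongr
  obtain ⟨δ3, hδ3, d3, d4⟩ : ∃ δ3, 0 < δ3 ∧ δ3 ≤ δ2 ∧ δ3 ≤ γ ^ 2 :=
    ⟨_, lt_min hδ2 (by positivity), min_le_left _ _, min_le_right _ _⟩
  obtain ⟨η, δ1, η0, δ10, δ11, hsm⟩ := gSmooth h C He t0 h0 (2 * A1 + 2) (by linarith) (q * θ / 8)
    (by positivity) B hB (Kc * 64 / (q * θ) ^ 2) (by positivity) δ3 hδ3
  obtain ⟨β, β0, β1, β2, β3, β4⟩ : ∃ β, 0 < β ∧ β ≤ η ∧ β ≤ δ1 ∧ β ≤ βs ∧ β ≤ βo * θ / 2 :=
    ⟨min (min η δ1) (min βs (βo * θ / 2)), by positivity, (min_le_left _ _).trans (min_le_left _ _),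
      (min_le_left _ _).trans (min_le_right _ _), (min_le_right _ _).trans (min_le_left _ _),
      (min_le_right _ _).trans (min_le_right _ _)⟩
  refine ⟨β, β0, β2.trans δ11, ?_⟩
  intro a t ε τ0 s z v p ha cs hs s1 hε hw reg hd
  have s2 : 0 < s ^ 2 := by positivity
  have s4 : s ≤ 1 / 4 := s1.trans (β2.trans δ11)
  have ht := cs.st.mem (right_mem_Icc.2 cs.st.2.1.le)
  have st : H.St (t - 2 * s ^ 2) t := cs.st.mono hw (by linarith) le_rfl
  obtain ⟨w, hwd⟩ : ∃ w, w = q * θ / 8 * s := ⟨_, rfl⟩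
  have w0 : 0 < w := by rw [hwd]; positivity
  have θs : θ * s ≤ 1 * s := by gcongr
  have w1 : w ≤ 1 / 4 * θ / 8 * s := by rw [hwd]; gcongr
  have As : s ≤ A * s := le_mul_of_one_le_left hs.le hA
  have Ls : s ≤ Λ * s := le_mul_of_one_le_left hs.le hΛ
  have eA : A1 * s = 16 * (A * s) + Λ * s := by rw [hA1]; ring
  obtain ⟨r2, r, e1, e2, e3, e4⟩ : ∃ r2 r : ℝ, r2 ≤ 2 * w ∧ (¬p → r2 = 2 * w) ∧ (p → r = A * s) ∧
      ∀ y, H.d t z y < r + w → y ∈ H.An t z r2 ((2 * A1 + 1) * s) := by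
    by_cases hp : p
    · exact ⟨0, A * s, by positivity, fun h => (h hp).elim, fun _ => rfl,
        fun y hy => ⟨d_nn D ht z y, by linarith⟩⟩
    · exact ⟨2 * w, -w, le_rfl, fun _ => rfl, fun h => (hp h).elim,
        fun y hy => absurd (d_nn D ht z y) (by linarith)⟩
  obtain ⟨χ, sχ, χ01, χ1, χ0, χg⟩ := hC t ht z (r2 - w) r2 ((2 * A1 + 1) * s) ((2 * A1 + 2) * s)
    (by linarith) (by linarith) (by linarith)
  have supp : ∀ x, χ x ≠ 0 → r2 - w < H.d t z x ∧ H.d t z x < (2 * A1 + 2) * s := fun x hx => by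
    by_contra hh
    rw [not_and_or, not_lt, not_lt] at hh
    exact hx (χ0 x hh).eq_of_nhds
  have in1 : θ / Cc * s ≤ w := by
    have k : θ / Cc ≤ θ / (8 / q) := by gcongr; linarith
    have k2 : θ / (8 / q) = q * θ / 8 := by field_simp
    rw [hwd, ← k2]; gcongr
  have out1 : (2 * A1 + 2) * s ≤ Cc * A * s := by
    have k1 : (34 + 2 * Λ) * (A * s) ≤ Cc * (A * s) := by gcongr; linarith
    have k2 : Λ * s ≤ Λ * (A * s) := by gcongr
    linarith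
  have one : ∀ x ∈ H.An t z (4 * w) (2 * A1 * s), ∀ y, H.d t x y < w → χ y = 1 := fun x hx y hy => by
    have k1 := D.tri t ht z x y
    have k2 := D.tri t ht z y x
    rw [D.symm t ht y x] at k2
    exact (χ1 y ⟨by linarith [hx.1], by linarith [hx.2]⟩).eq_of_nhds
  have εs : β * s ^ 2 ≤ 1 * s ^ 2 := by gcongr; linarith
  obtain ⟨σ, hσ, t', ht', ρ, g, sρ, sg, k1, k2, k3, k4⟩ := hsm (r := r) (x0 := z) ha cs hs
    (by linarith) hw (by linarith) sχ χ01 (fun x hx => (supp x hx).2.le) (fun x => by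
      have e : Kc * 64 / (q * θ) ^ 2 / s ^ 2 = Kc / w ^ 2 := by rw [hwd]; field_simp; norm_num
      rw [e]
      rcases le_total (H.d t z x) ((2 * A1 + 1) * s) with hx | hx
      · simpa using (χg x).1 hx
      · refine ((χg x).2 (by linarith)).trans ?_
        rw [show (2 * A1 + 2) * s - (2 * A1 + 1) * s = s by ring]
        gcongr; linarith)
    (reg_scale reg hs le_rfl hB β2 δ10.le fun x hx => ⟨by
      by_cases hp : p
      · exact Or.inl hp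
      · have := (supp x hx).1
        rw [e2 hp] at this
        exact Or.inr (by linarith), (supp x hx).2.le.trans out1⟩)
    (hd.trans β1) fun y hy => (χ1 y (e4 y (hwd ▸ hy))).eq_of_nhds
  rw [← hwd] at k3
  have e5 : q * (θ / 2 * s) = 4 * w := by rw [hwd]; ring
  have e6 : Ao * (θ / 2 * s) = A1 * s := by rw [hAo]; field_simp
  have n1 : βo * θ ≤ βo * 1 := by gcongr
  have n2 : β * s ^ 2 ≤ βo * (θ / 2 * s) :=
    calc β * s ^ 2 = β * s * s := by ring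
      _ ≤ βo * θ / 2 * s * 1 := by gcongr; linarith
      _ = _ := by ring
  have n3 : (θ / 2 * s) ^ 2 ≤ s ^ 2 := by gcongr; linarith
  have n4 : Λ * (θ / 2 * s) ≤ Ao * (θ / 2 * s) := by gcongr
  obtain ⟨m, hm⟩ := hO (s := θ / 2 * s) (A := Ao) (B := B) (γ := 2 * γ * s)
    (h := fun y => H.gam t ρ ρ y - 2 * 2 * ρ y) ha cs (by positivity) (by linarith)
    (by linarith) (by linarith) Ao1
    (reg_scale reg (by positivity) (by linarith) hB (β2.trans δ11) (by norm_num) fun x hx =>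
      ⟨Or.inr (by linarith [hx.1]), by linarith [hx.2]⟩)
    (Al.s0_sub (Al.s0_gam ht sρ sρ) (Al.s0_cmul _ sρ)) (by positivity) fun x hx => by
      have k5 := (k3 x (one x ⟨by linarith [hx.1], by linarith [hx.2]⟩)).2
      have k6 := He.kato t ht sρ 2 x
      have k7 : δ3 * s ^ 2 ≤ γ ^ 2 * s ^ 2 := by gcongr
      linarith
  have sub : H.An t z (θ / 2 * s) (16 * A * s) ⊆ H.An t z (4 * w) (2 * A1 * s) := fun x hx =>
    ⟨by linarith [hx.1], by linarith [hx.2]⟩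
  have P : H.PC t z τ0 v s (θ / 2) (16 * A) δ2 σ (m / 4) (fun y => 1 * ρ y + m / 4) g := by
    refine ⟨hσ, s0_aff Al sρ _ _, sg, fun x hx => ?_, k2.trans ?_, fun x hx => ?_, fun x hx => ?_⟩
    · rw [k1 x (one x (sub hx) x (by rw [D.self t ht]; exact w0))]; ring
    · gcongr
    · rw [Pc_add_const Al E ht sρ]
      exact (k3 x (one x (sub hx))).1.trans d3
    · rw [gam_aff2 Al ht sρ]
      have k5 := hm x ⟨hx.1, by linarith [hx.2]⟩
      have e7 : (Ao + Λ) * (2 * γ * s) * (θ / 2 * s) = θ * (δ2 * s ^ 2) := by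
        rw [hγ]; field_simp
      have k6 : θ * (δ2 * s ^ 2) ≤ 1 * (δ2 * s ^ 2) := by gcongr
      rw [e7] at k5
      rw [show 1 ^ 2 * H.gam t ρ ρ x - 4 * (1 * ρ x + m / 4) = H.gam t ρ ρ x - 2 * 2 * ρ x - m by
        ring]
      linarith
  obtain ⟨m1, m2⟩ := hS ha cs hs (s1.trans β3) (hε.trans (by gcongr)) hw (by linarith)
    (pc_mono P hs.le le_rfl le_rfl d2)
  have cc : C1 ≤ Cc := by linarith
  refine ⟨σ, m / 4, _, g, pc_mono P hs.le (by linarith) (by linarith) d1,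
    m1.trans (by gcongr), fun x hx => (m2 x ⟨by linarith [hx.1], by linarith [hx.2]⟩).trans
      (by gcongr), fun hp => ⟨t', ht', ?_⟩⟩
  simp only [gam_aff2 Al (st.mem ht') sρ]
  simp only [one_pow, one_mul]
  rw [← e3 hp]
  refine k4.trans ?_
  gcongr
  exact d3.trans d1

end Crest.Agent.N207.Ge

end
end

-- ▼ part N207/G/EnD
section

/-!
# Row 207, block G, entropy half (helper91): the cone function is the square of the distance
-/

set_option autoImplicit false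
set_option linter.dupNamespace false
set_option linter.unusedSectionVars false
open Set MeasureTheory Filter Topology
open scoped ContDiff

noncomputable section

namespace Crest.Agent.N207.Ge

open HC

variable {M : Type*} [TopologicalSpace M] [CompactSpace M] [MeasurableSpace M]
  [OpensMeasurableSpace M] {H : HC M}

/-- a smooth extension of `√(y + 2 c)` from `y > -c` -/
theorem sd_phi {c : ℝ} (hc : 0 < c) : ∃ φ : ℝ → ℝ, ContDiff ℝ ∞ φ ∧ (∀ y, 0 ≤ φ y) ∧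
    ∀ y, -c < y → φ y = √(y + 2 * c) ∧ deriv φ y = 1 / (2 * √(y + 2 * c)) := by
  set χ : ℝ → ℝ := fun y => Real.smoothTransition ((y + 3 / 2 * c) / (c / 2)) with hχ
  have cχ : ContDiff ℝ ∞ χ := Real.smoothTransition.contDiff.comp (by fun_prop)
  have p : ∀ y, 0 < χ y * (y + 2 * c) + (1 - χ y) * c := fun y => by
    have h0 : 0 ≤ χ y := Real.smoothTransition.nonneg _
    have h1 : χ y ≤ 1 := Real.smoothTransition.le_one _
    rcases le_total y (-(3 / 2 * c)) with hy | hy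
    · have : χ y = 0 := Real.smoothTransition.zero_of_nonpos
        (div_nonpos_of_nonpos_of_nonneg (by linarith) (by positivity))
      rw [this]; linarith
    · nlinarith [mul_nonneg h0 (show 0 ≤ y + 3 / 2 * c by linarith)]
  have e : ∀ y, -c < y → √(χ y * (y + 2 * c) + (1 - χ y) * c) = √(y + 2 * c) := fun y hy => by
    have : χ y = 1 := Real.smoothTransition.one_of_one_le
      (by rw [le_div_iff₀ (by positivity)]; linarith)
    rw [this]; congr 1; ring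
  refine ⟨fun y => √(χ y * (y + 2 * c) + (1 - χ y) * c),
    ContDiff.sqrt (by fun_prop) fun y => (p y).ne', fun y => Real.sqrt_nonneg _,
    fun y hy => ⟨e y hy, ?_⟩⟩
  have ev : (fun y => √(χ y * (y + 2 * c) + (1 - χ y) * c)) =ᶠ[𝓝 y] fun y => √(y + 2 * c) :=
    (lt_mem_nhds hy).mono e
  rw [ev.deriv_eq]
  exact (((hasDerivAt_id y).add_const (2 * c)).sqrt (by simp only [id]; linarith)).deriv

/-- the square root of the cone function -/
theorem sd_w (A : H.Alg) {t s β : ℝ} (ht : t ∈ Ioo 0 H.T) (hs : 0 < s) (β1 : β ≤ 1) {b : M → ℝ}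
    (sb : H.S0 b) : ∃ w, H.S0 w ∧ (∀ x, 0 ≤ w x) ∧ ∀ x, |H.gam t b b x - 4 * b x| ≤ β * s ^ 2 →
      w x = √(b x + 2 * s ^ 2) ∧ w x ^ 2 = b x + 2 * s ^ 2 ∧ H.gam t w w x ≤ 1 ∧
        4 * w x ^ 2 - 9 * s ^ 2 ≤ 4 * w x ^ 2 * H.gam t w w x := by
  have s2 : 0 < s ^ 2 := by positivity
  obtain ⟨φ, cφ, φ0, hφ⟩ := sd_phi s2
  refine ⟨fun x => φ (b x), A.s0_compU cφ sb, fun x => φ0 _, fun x hx => ?_⟩
  obtain ⟨h1, h2⟩ := abs_le.1 hx
  have g0 := A.gam_nonneg t ht sb x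
  have h3 : β * s ^ 2 ≤ 1 * s ^ 2 := by gcongr
  obtain ⟨e1, e2⟩ := hφ (b x) (by linarith)
  have p : 0 < b x + 2 * s ^ 2 := by linarith
  have q := Real.sq_sqrt p.le
  have r := Real.sqrt_pos.2 p
  have e3 : 4 * φ (b x) ^ 2 * H.gam t (fun x => φ (b x)) (fun x => φ (b x)) x = H.gam t b b x := by
    rw [A.gam_compU2 ht cφ sb, e2, e1]; field_simp; ring
  have e4 : φ (b x) ^ 2 = b x + 2 * s ^ 2 := by rw [e1, q]
  refine ⟨e1, e4, ?_, by rw [e3, e4]; linarith⟩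
  rw [e4] at e3
  by_contra hn
  nlinarith [mul_pos p (sub_pos.2 (not_le.1 hn))]

/-- balls of time `t` have volume at the times of the window -/
theorem sd_vol (h : H.Ok) (C : H.COut) {t0 : ℝ} (h0 : 0 < t0) : ∃ k, 0 < k ∧
    ∀ {t σ ρ : ℝ} (y : M), t0 ≤ σ → σ ≤ t → t - σ ≤ 1 → t < H.T → 0 < ρ → ρ ≤ 1 →
      k * ρ ^ 4 ≤ (H.vol σ).real (H.B t y ρ) := by
  obtain ⟨κ, hκ, h2⟩ := C.lo t0 h0
  obtain ⟨K0, hK0⟩ := h.evo.R_bd
  have hK : ∀ t ∈ Ioo 0 H.T, ∀ x, |H.R t x| ≤ |K0| := fun t ht x =>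
    (hK0 t ht x).trans (le_abs_self K0)
  refine ⟨κ / Real.exp |K0|, by positivity, fun {t σ ρ} y h1 h3 h4 h5 ρ0 ρ1 => ?_⟩
  have a5 := (h2 t ⟨h1.trans h3, h5⟩ y ρ ⟨ρ0, ρ1⟩).trans
    (vol_real_le2 h.int hK (s := σ) ⟨by linarith, by linarith⟩ ⟨by linarith, h5⟩ _)
  have a6 : Real.exp (|K0| * |t - σ|) ≤ Real.exp |K0| := Real.exp_le_exp.2
    (mul_le_of_le_one_right (abs_nonneg _) (by rwa [abs_of_nonneg (sub_nonneg.2 h3)]))
  have a7 := a5.trans (mul_le_mul_of_nonneg_right a6 measureReal_nonneg)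
  rwa [div_mul_eq_mul_div, div_le_iff₀' (Real.exp_pos _)]

/-- a point at a given small distance -/
theorem sd_ne (h : H.Ok) (C : H.COut) {t0 : ℝ} (h0 : 0 < t0) : ∃ r0, 0 < r0 ∧
    ∀ t ∈ Ico t0 H.T, ∀ z r, 0 < r → r ≤ r0 → ∃ y, H.d t z y = r := by
  obtain ⟨κ, hκ, h1⟩ := C.lo t0 h0
  obtain ⟨V, hV, h2⟩ := C.up t0 h0
  refine ⟨min 1 (κ / (2 * V)), by positivity, fun t ht z r r0 hr => ?_⟩
  have tt : t ∈ Ioo 0 H.T := ⟨by linarith [ht.1], ht.2⟩
  have r1 : r ≤ 1 := hr.trans (min_le_left _ _)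
  have r2 : r * (2 * V) ≤ κ := (le_div_iff₀ (by positivity)).1 (hr.trans (min_le_right _ _))
  obtain ⟨p, hp⟩ : ∃ p, r ≤ H.d t z p := by
    by_contra! hn
    have := h.int.fin t tt
    have k : (H.vol t).real (H.B t z 1) ≤ (H.vol t).real (H.B t z r) :=
      measureReal_mono fun p _ => hn p
    have k1 := h1 t ht z 1 ⟨one_pos, le_rfl⟩
    have k2 := h2 t ht z r r0
    have k3 : r ^ 4 ≤ r := pow_le_of_le_one r0.le r1 (by norm_num)
    nlinarith
  obtain ⟨K, hK, zK, pK, -⟩ := h.dist.conn t tt (lt_add_one (H.d t z p))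
  obtain ⟨y, -, hy⟩ := hK.intermediate_value zK pK (h.dist.cont t tt z).continuousOn
    ⟨by rw [h.dist.self t tt]; exact r0.le, hp⟩
  exact ⟨y, hy⟩

/-- Chebyshev -/
theorem sd_cheb (h : H.Ok) {t σ ρ m : ℝ} (ht : t ∈ Ioo 0 H.T) (hσ : σ ∈ Ioo 0 H.T) {g : M → ℝ}
    (sg : H.S0 g) {y : M} (hm : 0 ≤ m)
    (hl : ∫ x, g x ^ 2 ∂H.vol σ < (H.vol σ).real (H.B t y ρ) * m ^ 2) :
    ∃ x, H.d t y x < ρ ∧ |g x| ≤ m := by
  by_contra! hn
  have := h.int.fin σ hσ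
  have k := setInt_le_int h hσ (isOpen_B h.dist ht y ρ).measurableSet (P := fun _ => m ^ 2)
    (integrable_const _) (h.alg.s0_pow 2 sg) (fun x => sq_nonneg _) fun x hx => by
      rw [← sq_abs (g x)]; gcongr; exact (hn x hx).le
  rw [setIntegral_const, smul_eq_mul] at k
  linarith

/-- mass of a density that is large where `g` is small -/
theorem sd_mass (h : H.Ok) {σ c m : ℝ} (hσ : σ ∈ Ioo 0 H.T) {g v : M → ℝ}
    (sg : H.S0 g) (sv : H.S0 v) (v0 : ∀ x, 0 ≤ v x) {B S : Set M} (hB : MeasurableSet B)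
    (BS : B ⊆ S) (hm : 0 < m) (hc : 0 ≤ c) (hv : ∀ x ∈ B, |g x| ≤ m → c ≤ v x) :
    c * ((H.vol σ).real B - (∫ x, g x ^ 2 ∂H.vol σ) / m ^ 2) ≤ ∫ x in S, v x ∂H.vol σ := by
  have := h.int.fin σ hσ
  have ig := h.alg.integrable h.int hσ (h.alg.s0_pow 2 sg)
  have iv := h.alg.integrable h.int hσ sv
  have k1 : ∫ x in B, v x ∂H.vol σ ≤ ∫ x in S, v x ∂H.vol σ :=
    setIntegral_mono_set iv.integrableOn (Eventually.of_forall v0) (LE.le.eventuallyLE BS)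
  have k2 : ∫ x in B, (c - c / m ^ 2 * g x ^ 2) ∂H.vol σ ≤ ∫ x in B, v x ∂H.vol σ :=
    setIntegral_mono_on ((integrable_const c).sub (ig.const_mul _)).integrableOn iv.integrableOn hB
      fun x hx => by
        rcases le_total |g x| m with h1 | h1
        · have : 0 ≤ c / m ^ 2 * g x ^ 2 := by positivity
          linarith [hv x hx h1]
        · have h2 : m ^ 2 ≤ g x ^ 2 := by rw [← sq_abs (g x)]; gcongr
          have : c / m ^ 2 * m ^ 2 ≤ c / m ^ 2 * g x ^ 2 := by gcongr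
          rw [div_mul_cancel₀ _ (by positivity)] at this
          linarith [v0 x]
  rw [integral_sub (integrable_const c).integrableOn (ig.const_mul _).integrableOn,
    setIntegral_const, integral_const_mul, smul_eq_mul] at k2
  have k3 : ∫ x in B, g x ^ 2 ∂H.vol σ ≤ ∫ x, g x ^ 2 ∂H.vol σ :=
    setIntegral_le_integral ig (Eventually.of_forall fun x => sq_nonneg _)
  have k4 : c / m ^ 2 * ∫ x in B, g x ^ 2 ∂H.vol σ ≤ c / m ^ 2 * ∫ x, g x ^ 2 ∂H.vol σ := by gcongr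
  have e : c * ((H.vol σ).real B - (∫ x, g x ^ 2 ∂H.vol σ) / m ^ 2) =
    (H.vol σ).real B * c - c / m ^ 2 * ∫ x, g x ^ 2 ∂H.vol σ := by ring
  linarith

/-- a bound on `4 τ f` is a lower bound on the density -/
theorem sd_v {τ s G : ℝ} {u : M → ℝ} {x : M} (hs : 0 < s) (h1 : s ^ 2 ≤ τ) (h2 : τ ≤ 3 * s ^ 2)
    (hG : 0 ≤ G) (hu : 0 < u x) (h : 4 * τ * pot τ u x ≤ G * s ^ 2) :
    Real.exp (-G) / (12 * Real.pi) ^ 2 / s ^ 4 ≤ u x := by
  have s2 : 0 < s ^ 2 := by positivity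
  have hτ : 0 < τ := by linarith
  have hπ := Real.pi_pos
  rw [pot_eq hτ hu] at h
  have k : -G ≤ Real.log (u x * (4 * Real.pi * τ) ^ 2) := by
    by_contra hn
    have := not_le.1 hn
    nlinarith [mul_le_mul_of_nonneg_left h1 hG]
  rw [Real.le_log_iff_exp_le (by positivity)] at k
  rw [div_div, div_le_iff₀ (by positivity)]
  refine k.trans (mul_le_mul_of_nonneg_left ?_ hu.le)
  calc (4 * Real.pi * τ) ^ 2 ≤ (4 * Real.pi * (3 * s ^ 2)) ^ 2 := by gcongr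
    _ = _ := by ring

theorem sd_sub (D : H.Dist) {t : ℝ} (ht : t ∈ Ioo 0 H.T) {z x y : M} {r p q : ℝ}
    (h1 : p + r ≤ H.d t z x) (h2 : H.d t z x + r ≤ q) (h : H.d t x y ≤ r) : y ∈ H.An t z p q := by
  have a1 := D.tri t ht z x y
  have a2 := D.tri t ht z y x
  rw [D.symm t ht y x] at a2
  exact ⟨by linarith, by linarith⟩

/-- descent with a slope -/
theorem sd_desc (A : H.Alg) (D : H.Dist) {t : ℝ} (ht : t ∈ Ioo 0 H.T) {w : M → ℝ} (hw : H.S0 w)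
    {x : M} {r ε c : ℝ} (hr : 0 < r) (hε : 0 < ε) (hc : 0 < c)
    (h : ∀ y, H.d t x y < r → c ^ 2 ≤ H.gam t w w y) :
    ∃ y, H.d t x y ≤ r ∧ w y ≤ w x - c * (r - ε) := by
  obtain ⟨y, h1, h2⟩ := descent A D ht (s0_aff A hw c⁻¹ 0) hr hε (x := x) fun y hy => by
    rw [gam_aff2 A ht hw, inv_pow]
    exact (one_le_inv_mul₀ (by positivity)).2 (h y hy)
  refine ⟨y, h1, ?_⟩
  have := mul_le_mul_of_nonneg_left h2 hc.le
  simp only [add_zero, mul_add, mul_sub, mul_inv_cancel_left₀ hc.ne'] at this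
  linarith

section Met
variable (A : H.Alg) (D : H.Dist) {t s θ R μ F F0 : ℝ} (ht : t ∈ Ioo 0 H.T) {z : M} {w : M → ℝ}
  (sw : H.S0 w) (w0 : ∀ x, 0 ≤ w x) (hs : 0 < s) (θ0 : 0 < θ) (θ1 : θ ≤ 1 / 2) (hR : 16 ≤ R)
  (g1 : ∀ x ∈ H.An t z (θ * s) (R * s), H.gam t w w x ≤ 1)
  (g2 : ∀ x ∈ H.An t z (θ * s) (R * s), 4 * w x ^ 2 - 9 * s ^ 2 ≤ 4 * w x ^ 2 * H.gam t w w x)
  (hF : 0 ≤ F) (hF0 : 0 ≤ F0)
  (hc : ∀ y ∈ H.An t z (2 * θ * s) (4 * s), ∃ q, 0 ≤ q ∧ |q - w y| ≤ s / 16 ∧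
    μ + (1 - F0) * s ^ 2 ≤ q ^ 2 ∧ q ^ 2 ≤ μ + (F + 3) * s ^ 2)
include A D ht sw hs θ1 hR g2 hF hF0 hc in
theorem sd_mu {y0 : M} (hy : H.d t z y0 = 5 / 2 * s) :
    μ ≤ (F0 + 8 + 16 * (F + F0 + 2) ^ 2) * s ^ 2 := by
  have s2 : 0 < s ^ 2 := by positivity
  have θs : θ * s ≤ 1 / 2 * s := by gcongr
  have Rs : 16 * s ≤ R * s := by gcongr
  by_contra hn
  have hμ := not_le.1 hn
  have p0 : 0 ≤ 16 * (F + F0 + 2) ^ 2 * s ^ 2 := by positivity
  have big : ∀ q, 0 ≤ q → μ + (1 - F0) * s ^ 2 ≤ q ^ 2 → 3 * s ≤ q := fun q q0 hq =>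
    abs_le_of_sq_le_sq' (by nlinarith) q0 |>.2
  obtain ⟨y, h1, h2⟩ := sd_desc A D ht sw (x := y0) (c := 1 / 2) (ε := s / 4) hs (by positivity)
    (by norm_num) fun y hy' => by
      obtain ⟨q, q0, q1, q2, -⟩ := hc y (sd_sub D ht (by linarith) (by linarith) hy'.le)
      have a1 := big q q0 q2
      have a2 := g2 y (sd_sub D ht (by linarith) (by linarith) hy'.le)
      have a3 : 2 * s ≤ w y := by linarith [(abs_le.1 q1).2]
      have a4 : (2 * s) ^ 2 ≤ w y ^ 2 := by gcongr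
      by_contra hlt
      nlinarith [mul_pos (show 0 < w y ^ 2 by nlinarith) (sub_pos.2 (not_le.1 hlt))]
  obtain ⟨q, q0, q1, q2, -⟩ := hc y (sd_sub D ht (by linarith) (by linarith) h1)
  obtain ⟨p, -, p1, -, p3⟩ := hc y0 ⟨by linarith, by linarith⟩
  have a1 : q + s / 4 ≤ p := by linarith [(abs_le.1 q1).2, (abs_le.1 p1).1]
  have a2 : (q + s / 4) ^ 2 ≤ p ^ 2 := by gcongr
  have a3 : s * q ≤ s * (2 * (F + F0 + 2) * s) := by nlinarith
  have a4 := le_of_mul_le_mul_left a3 hs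
  have a5 : q ^ 2 ≤ (2 * (F + F0 + 2) * s) ^ 2 := by gcongr
  nlinarith

include A D ht sw hs θ0 θ1 hR g1 hc in
theorem sd_up {c : ℝ} (c1 : 1 ≤ c) (hμ : μ + (F + 3) * s ^ 2 ≤ c * s ^ 2) {x : M}
    (hx : x ∈ H.An t z (2 * θ * s) (R / 2 * s)) : w x ≤ H.d t z x + (c + 1) * s := by
  have θs : θ * s ≤ 1 / 2 * s := by gcongr
  have Rs : 16 * s ≤ R * s := by gcongr
  have k : ∀ y ∈ H.An t z (2 * θ * s) (4 * s), w y ≤ (c + 1) * s := fun y hy => by
    obtain ⟨q, -, q1, -, q3⟩ := hc y hy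
    have : q ≤ c * s := (abs_le_of_sq_le_sq' (by
      nlinarith [mul_le_mul_of_nonneg_right (show c ≤ c ^ 2 by nlinarith) (sq_nonneg s)])
      (by positivity)).2
    linarith [(abs_le.1 q1).1]
  have d0 := Alg.d_nonneg D ht z x
  rcases le_total (H.d t z x) (4 * s) with h4 | h4
  · linarith [k x ⟨hx.1, h4⟩]
  · obtain ⟨y, y1, y2⟩ := mid A D ht (x := x) (y := z) (a := H.d t z x - 2 * s) (b := 3 * s)
      (by linarith) (by linarith) (by rw [D.symm t ht x z]; linarith)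
    have a1 := D.lip t ht sw (x := x) (r := H.d t z x - 2 * s)
      (fun u hu => g1 u (sd_sub D ht (by linarith) (by linarith [hx.2]) hu.le)) y1
    have a2 := k y ⟨(sd_sub D ht (q := 2 * H.d t z x) (by linarith) (by linarith) y1.le).1,
      by linarith⟩
    linarith [(abs_le.1 a1).1]

include A D ht sw w0 hs θ1 g2 in
theorem sd_lo {κ a : ℝ} (κ0 : 0 < κ) (κ1 : κ ≤ 1 / 2) (a1 : 1 ≤ a)
    (hb : ∀ y ∈ H.An t z (a * s) ((R - 1) * s), 3 / κ * s ≤ w y) {x : M}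
    (hx : H.d t z x ≤ R / 2 * s) : H.d t z x - κ * H.d t z x - (a + 1) * s ≤ w x := by
  have θs : θ * s ≤ 1 / 2 * s := by gcongr
  have as : 1 * s ≤ a * s := by gcongr
  have d0 := Alg.d_nonneg D ht z x
  rcases le_or_gt (H.d t z x) (a * s) with h4 | h4
  · nlinarith [w0 x]
  obtain ⟨y, -, h2⟩ := sd_desc A D ht sw (x := x) (c := 1 - κ) (ε := s) (sub_pos.2 h4) hs
    (by linarith) fun y hy => by
      have b1 := hb y (sd_sub D ht (by linarith) (by linarith) hy.le)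
      have b2 := g2 y (sd_sub D ht (by linarith) (by linarith) hy.le)
      rw [div_mul_eq_mul_div, div_le_iff₀ κ0] at b1
      have b3 : (3 * s) ^ 2 ≤ (w y * κ) ^ 2 := by gcongr
      have b4 : 0 < w y := by nlinarith [w0 y]
      have b5 : 0 < w y ^ 2 := by positivity
      by_contra hlt
      have b6 := mul_pos b5 (sub_pos.2 (not_le.1 hlt))
      have b7 : w y ^ 2 * (5 * κ ^ 2) ≤ w y ^ 2 * (8 * κ) := by gcongr ?_ * ?_; nlinarith
      nlinarith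
  nlinarith [w0 y, mul_nonneg κ0.le (show 0 ≤ (a + 1) * s by positivity)]

end Met

set_option maxHeartbeats 1000000 in
theorem gSand (h : H.Ok) (C : H.COut) : H.GSand := by
  intro t0 h0 κ hκ
  have Al := h.alg
  have D := h.dist
  have hπ := Real.pi_pos
  obtain ⟨F0, hF0, hp⟩ := gPot h C t0 h0
  obtain ⟨F, hF, hp⟩ := hp 5 (by norm_num)
  obtain ⟨k, hk, hvol⟩ := sd_vol h C h0
  obtain ⟨r0, hr0, hne⟩ := sd_ne h C h0
  obtain ⟨κ', κ0, κ1, κ2⟩ : ∃ κ' : ℝ, 0 < κ' ∧ κ' ≤ 1 / 2 ∧ κ' ≤ κ :=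
    ⟨min (1 / 2) κ, by positivity, min_le_left _ _, min_le_right _ _⟩
  obtain ⟨G, hG⟩ : ∃ G, G = (3 / κ' + 1) ^ 2 + (F + 3) := ⟨_, rfl⟩
  have G0 : 0 ≤ G := by rw [hG]; positivity
  obtain ⟨c0, hc0⟩ : ∃ c0, c0 = Real.exp (-G) / (12 * Real.pi) ^ 2 := ⟨_, rfl⟩
  have c00 : 0 < c0 := by rw [hc0]; positivity
  obtain ⟨A0, hA0, htight⟩ := gTight h C t0 h0 (c0 * k / 8) (by positivity)
  obtain ⟨C2, hC2⟩ : ∃ C2, C2 = F0 + 8 + 16 * (F + F0 + 2) ^ 2 := ⟨_, rfl⟩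
  have C20 : 8 ≤ C2 := by rw [hC2]; nlinarith [sq_nonneg (F + F0 + 2)]
  refine ⟨C2 + F + 4 + (2 * A0 + 2), by linarith, fun θ θ0 θ1 => ?_⟩
  obtain ⟨β, β0, β1, β2, β3, β4⟩ : ∃ β : ℝ, 0 < β ∧ β ≤ 1 / 2 ∧ β ≤ r0 / 3 ∧
      β ≤ k * (θ / 8) ^ 4 / 2 ∧ β ≤ c0 * k / 8 :=
    ⟨min (min (1 / 2) (r0 / 3)) (min (k * (θ / 8) ^ 4 / 2) (c0 * k / 8)), by positivity,
      (min_le_left _ _).trans (min_le_left _ _), (min_le_left _ _).trans (min_le_right _ _),
      (min_le_right _ _).trans (min_le_left _ _), (min_le_right _ _).trans (min_le_right _ _)⟩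
  refine ⟨β, β0, fun {a t ε τ0 s R σ μ z v b g} ha cs hs sβ hε hw hR P => ?_⟩
  have s2 : 0 < s ^ 2 := by positivity
  have s1 : s ≤ 1 / 2 := sβ.trans β1
  have s3 : s ^ 2 ≤ s := by nlinarith
  have ε1 : ε ≤ s ^ 2 := hε.trans (by nlinarith)
  have hσ := P.σ1
  have aσ : a ≤ σ := hw.trans hσ.1
  have hm : σ ∈ Icc a t := ⟨aσ, by linarith [hσ.2]⟩
  have tσ := cs.st.mem hm
  have ht := cs.st.mem (right_mem_Icc.2 cs.st.2.1.le)
  have θs : θ * s ≤ 1 / 2 * s := by gcongr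
  have θs0 : 0 < θ * s := by positivity
  have Rs : 16 * s ≤ R * s := by gcongr
  have hF' := hp ha cs hs s1 ε1 σ hσ aσ
  have hv := fun (y : M) {ρ : ℝ} => @hvol t σ ρ y (ha.trans aσ) hm.2 (by linarith [hσ.1]) ht.2
  obtain ⟨w, sw, w0, hw'⟩ := sd_w Al ht hs (β1.trans (by norm_num)) P.sb
  have g1 := fun x hx => (hw' x (P.gam x hx)).2.2.1
  have g2 := fun x hx => (hw' x (P.gam x hx)).2.2.2
  have hc : ∀ y ∈ H.An t z (2 * θ * s) (4 * s), ∃ q, 0 ≤ q ∧ |q - w y| ≤ s / 16 ∧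
      μ + (1 - F0) * s ^ 2 ≤ q ^ 2 ∧ q ^ 2 ≤ μ + (F + 3) * s ^ 2 := fun y hy => by
    obtain ⟨x, x1, x2⟩ := sd_cheb h ht tσ P.sg (y := y) (ρ := θ / 8 * s) s2.le (by
      have k1 := hv y (ρ := θ / 8 * s) (by positivity) (by linarith)
      have k2 : 0 < k * (θ / 8) ^ 4 * s ^ 8 := by positivity
      calc _ ≤ β * s ^ 8 := P.l2
        _ ≤ k * (θ / 8) ^ 4 / 2 * s ^ 8 := by gcongr
        _ < k * (θ / 8 * s) ^ 4 * (s ^ 2) ^ 2 := by linarith
        _ ≤ _ := by gcongr)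
    have sub : ∀ u, H.d t y u < θ / 8 * s → u ∈ H.An t z (θ * s) (5 * s) := fun u hu =>
      sd_sub D ht (by linarith [hy.1]) (by linarith [hy.2]) hu.le
    have sub' : ∀ u, H.d t y u < θ / 8 * s → u ∈ H.An t z (θ * s) (R * s) := fun u hu =>
      ⟨(sub u hu).1, by linarith [(sub u hu).2]⟩
    have l := D.lip t ht sw (fun u hu => g1 u (sub' u hu)) x1
    have e1 := (hw' x (P.gam x (sub' x x1))).2.1
    have e2 := P.eq x (sub' x x1)
    obtain ⟨f1, f2⟩ := hF' x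
    have f3 := f2 (sub x x1).2
    obtain ⟨x3, x4⟩ := abs_le.1 x2
    exact ⟨w x, w0 x, by linarith, by linarith, by linarith⟩
  obtain ⟨y0, hy0⟩ := hne t ⟨ha.trans cs.st.2.1.le, ht.2⟩ z (5 / 2 * s) (by positivity)
    (by linarith)
  have μ2 := sd_mu Al D ht sw hs θ1 hR g2 hF hF0 hc hy0
  rw [← hC2] at μ2
  have μ1 : 0 ≤ μ + (F + 3) * s ^ 2 := by
    obtain ⟨q, -, -, -, q3⟩ := hc y0 ⟨by linarith, by linarith⟩
    exact (sq_nonneg q).trans q3
  have As : 1 * s ≤ A0 * s := by gcongr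
  have hb : ∀ y ∈ H.An t z ((2 * A0 + 1) * s) ((R - 1) * s), 3 / κ' * s ≤ w y := fun y hy => by
    by_contra hn
    have sub : ∀ u, H.d t y u < s → u ∈ H.An t z (2 * A0 * s) (R * s) := fun u hu =>
      sd_sub D ht (by linarith [hy.1]) (by linarith [hy.2]) hu.le
    have sub' : ∀ u, H.d t y u < s → u ∈ H.An t z (θ * s) (R * s) := fun u hu =>
      ⟨by linarith [(sub u hu).1], (sub u hu).2⟩
    have r1 : s ≤ √(t - σ) := Real.le_sqrt_of_sq_le (by linarith [hσ.2])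
    have r2 : √(t - σ) ≤ 2 * s := Real.sqrt_le_iff.2 ⟨by positivity, by nlinarith [hσ.1]⟩
    have k1 := htight ha cs σ ⟨aσ, by linarith [hσ.2]⟩ (by linarith)
    obtain ⟨τ1, τ2⟩ := cs_tau cs ε1 hσ
    have vp := cs_pos h cs σ hm
    have k2 := sd_mass h tσ P.sg (cs_s0 h cs hm) (fun x => (vp x).le)
      (isOpen_B D ht y s).measurableSet (S := {y | A0 * √(t - σ) ≤ H.d t z y})
      (fun u hu => le_trans (by nlinarith) (sub u hu).1) s2 (c := c0 / s ^ 4) (by positivity)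
      fun x hx x2 => by
        rw [hc0]
        refine sd_v hs τ1 τ2 G0 (vp x) ?_
        have l := D.lip t ht sw (fun u hu => g1 u (sub' u hu)) hx
        have l1 : H.d t y x < s := hx
        have l2 : w x ≤ (3 / κ' + 1) * s := by linarith [(abs_le.1 l).2, not_le.1 hn]
        have l3 : w x ^ 2 ≤ ((3 / κ' + 1) * s) ^ 2 := by have := w0 x; gcongr
        have e1 := (hw' x (P.gam x (sub' x hx))).2.1
        have e2 := P.eq x (sub' x hx)
        unfold Fv at e2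
        rw [hG]
        linarith [(abs_le.1 x2).2]
    have k3 := hv y hs (by linarith)
    have k4 : (∫ x, g x ^ 2 ∂H.vol σ) / (s ^ 2) ^ 2 ≤ k / 2 * s ^ 4 := by
      rw [div_le_iff₀ (by positivity)]
      have : (θ / 8) ^ 4 ≤ 1 := pow_le_one₀ (by positivity) (by linarith)
      calc _ ≤ β * s ^ 8 := P.l2
        _ ≤ k * 1 / 2 * s ^ 8 := by gcongr; exact β3.trans (by gcongr)
        _ = _ := by ring
    have k5 : c0 / s ^ 4 * (k / 2 * s ^ 4) ≤ _ :=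
      (mul_le_mul_of_nonneg_left (by linarith) (by positivity)).trans k2
    rw [show c0 / s ^ 4 * (k / 2 * s ^ 4) = c0 * k / 2 by field_simp] at k5
    have k6 : β * s ^ 2 ≤ β * 1 := by gcongr; linarith
    have : 0 < c0 * k := by positivity
    linarith
  refine ⟨abs_le.2 ⟨by nlinarith, by nlinarith⟩, fun x hx => ?_⟩
  have u1 := sd_up Al D ht sw hs θ0 θ1 hR g1 hc (c := C2 + F + 3) (by linarith) (by linarith) hx
  have u2 := sd_lo Al D ht sw w0 hs θ1 g2 κ0 κ1 (a := 2 * A0 + 1) (by linarith) hb hx.2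
  have d0 := Alg.d_nonneg D ht z x
  have d1 : κ' * H.d t z x ≤ κ * H.d t z x := by gcongr
  have d2 : 0 ≤ κ' * H.d t z x := by positivity
  have d3 : 0 ≤ (C2 + F + 4) * s := by positivity
  rw [← (hw' x (P.gam x ⟨by linarith [hx.1], by linarith [hx.2]⟩)).1]
  exact abs_le.2 ⟨by linarith, by linarith⟩

end Crest.Agent.N207.Ge

end
end

-- ▼ part N207/G/EnO1
section

/-!
# Row 207, block G, entropy half (helper49): annular cutoffs and the separation lemma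
-/

set_option autoImplicit false
set_option linter.dupNamespace false
set_option linter.unusedSectionVars false
open Set MeasureTheory Filter Topology
open scoped ContDiff

noncomputable section

namespace Crest.Agent.N207.Ge

open HC

variable {M : Type*} [TopologicalSpace M] [CompactSpace M] [MeasurableSpace M]
  [OpensMeasurableSpace M] {H : HC M}

/-- a step function of a smooth function -/
theorem cut1 (A : H.Alg) : ∃ K : ℝ, 1 ≤ K ∧ ∀ {U : M → ℝ}, H.S0 U → ∀ c D : ℝ, 0 < D →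
    ∃ β, H.S0 β ∧ (∀ x, 0 ≤ β x ∧ β x ≤ 1) ∧ (∀ x, U x < c + D / 4 → β =ᶠ[𝓝 x] fun _ => 1) ∧
      (∀ x, c + 3 * D / 4 < U x → β =ᶠ[𝓝 x] fun _ => 0) ∧
      ∀ t ∈ Ioo 0 H.T, ∀ x, H.gam t β β x ≤ K / D ^ 2 * H.gam t U U x := by
  obtain ⟨K, hK, k1, -⟩ := E.zeta_bounds
  refine ⟨4 * K ^ 2 + 1, by nlinarith, fun {U} hU c D hD =>
    ⟨fun x => E.zeta (2 / D * U x + (1 / 2 - 2 * c / D)), A.s0_compU E.zeta_cd (s0_aff A hU _ _),
      fun x => ⟨E.zeta_nonneg _, E.zeta_le_one _⟩, fun x hx => ?_, fun x hx => ?_,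
      fun t ht x => ?_⟩⟩
  · filter_upwards [(isOpen_lt (A.s0_cont hU) continuous_const).mem_nhds hx] with y hy
    refine E.zeta_one ?_
    have : 2 / D * U y + (1 / 2 - 2 * c / D) = 1 / 2 + 2 * (U y - c) / D := by ring
    have h2 : 2 * (U y - c) / D ≤ 1 / 2 := by rw [div_le_iff₀ hD]; linarith
    linarith
  · filter_upwards [(isOpen_lt continuous_const (A.s0_cont hU)).mem_nhds hx] with y hy
    refine E.zeta_zero ?_
    have : 2 / D * U y + (1 / 2 - 2 * c / D) = 1 / 2 + 2 * (U y - c) / D := by ring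
    have h2 : 3 / 2 ≤ 2 * (U y - c) / D := by rw [le_div_iff₀ hD]; linarith
    linarith
  · rw [gam_psi2 A ht hU E.zeta_cd]
    refine mul_le_mul_of_nonneg_right ?_ (A.gam_nonneg t ht hU x)
    have h1 : deriv E.zeta (2 / D * U x + (1 / 2 - 2 * c / D)) ^ 2 ≤ K ^ 2 := by
      rw [← sq_abs]; gcongr; exact k1 _
    calc _ ≤ K ^ 2 * (2 / D) ^ 2 := by gcongr
      _ = 4 * K ^ 2 / D ^ 2 := by ring
      _ ≤ _ := by gcongr; linarith

theorem gCut (h : H.Ok) : H.GCut := by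
  have A := h.alg
  obtain ⟨K, hK, hc⟩ := cut1 A
  refine ⟨K, hK, fun t ht z r1 r2 r3 r4 h12 h23 h34 => ?_⟩
  have p1 := sub_pos.2 h12
  have p2 := sub_pos.2 h34
  obtain ⟨U, hU, g1, g2⟩ := h.dist.approx t ht z (min (r2 - r1) (r4 - r3) / 8) (by positivity)
  have m1 := min_le_left (r2 - r1) (r4 - r3)
  have m2 := min_le_right (r2 - r1) (r4 - r3)
  obtain ⟨α, sα, α0, α1, α2, α3⟩ := hc hU r1 _ p1
  obtain ⟨β, sβ, β0, β1, β2, β3⟩ := hc hU r3 _ p2
  have sa := s0_aff A sα (-1) 1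
  have a1 : ∀ x, r2 ≤ H.d t z x → α =ᶠ[𝓝 x] fun _ => 0 := fun x hx =>
    α2 x (by linarith [(abs_le.1 (g2 x)).1])
  have b1 : ∀ x, H.d t z x ≤ r3 → β =ᶠ[𝓝 x] fun _ => 1 := fun x hx =>
    β1 x (by linarith [(abs_le.1 (g2 x)).2])
  refine ⟨fun x => (-1 * α x + 1) * β x, A.s0_mul sa sβ, fun x => ?_, fun x hx => ?_,
    fun x hx => ?_, fun x => ⟨fun hx => ?_, fun hx => ?_⟩⟩
  · have := α0 x; have := β0 x
    constructor <;> nlinarith
  · filter_upwards [a1 x hx.1, b1 x hx.2] with y h1 h2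
    rw [h1, h2]; norm_num
  · rcases hx with hx | hx
    · filter_upwards [α1 x (by linarith [(abs_le.1 (g2 x)).2])] with y h1
      rw [h1]; norm_num
    · filter_upwards [β2 x (by linarith [(abs_le.1 (g2 x)).1])] with y h1
      rw [h1]; norm_num
  · have e : (fun x => (-1 * α x + 1) * β x) =ᶠ[𝓝 x] fun x => -1 * α x + 1 := by
      filter_upwards [b1 x hx] with y h1
      rw [h1, mul_one]
    rw [gam_local A ht (A.s0_mul sa sβ) sa (A.s0_mul sa sβ) sa e e, gam_aff2 A ht sα]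
    have := (α3 t ht x).trans (mul_le_of_le_one_right (by positivity) (g1 x))
    linarith
  · have e : (fun x => (-1 * α x + 1) * β x) =ᶠ[𝓝 x] β := by
      filter_upwards [a1 x hx] with y h1
      rw [h1]; norm_num
    rw [gam_local A ht (A.s0_mul sa sβ) sβ (A.s0_mul sa sβ) sβ e e]
    exact (β3 t ht x).trans (mul_le_of_le_one_right (by positivity) (g1 x))

theorem gam_ev_zero (A : H.Alg) {t : ℝ} (ht : t ∈ Ioo 0 H.T) {F : M → ℝ} (hF : H.S0 F) {x : M}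
    {c : ℝ} (e : F =ᶠ[𝓝 x] fun _ => c) : H.gam t F F x = 0 := by
  rw [gam_local A ht hF (A.s0_const c) hF (A.s0_const c) e e, A.gam_const ht c (A.s0_const c)]

/-- a cut off function cannot separate two balls -/
theorem noSep (h : H.Ok) (C : H.COut) {t0 K : ℝ} (h0 : 0 < t0) (hK : 0 < K) :
    ∃ θ Λ β : ℝ, 0 < θ ∧ θ ≤ 1 / 16 ∧ 16 ≤ Λ ∧ 0 < β ∧
    ∀ {a t ε τ0 s B : ℝ} {z : M} {v : ℝ → M → ℝ} {F : M → ℝ}, t0 ≤ a → H.CS a t z ε τ0 v →
      0 < s → s ≤ β → ε ≤ β * s → a ≤ t - 2 * s ^ 2 →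
      H.Reg t s B (1 / 4) (H.An t z (θ * s) (Λ * s)) → H.S0 F → (∀ x, 0 ≤ F x ∧ F x ≤ 1) →
      (∀ x ∉ H.An t z (θ * s) (Λ * s), F =ᶠ[𝓝 x] fun _ => 0) →
      (∀ x ∈ H.An t z (θ * s) (Λ * s), H.gam t F F x ≤ K / (θ * s) ^ 2 + K / (Λ * s) ^ 2 ∧
        (2 * θ * s ≤ H.d t z x → H.gam t F F x ≤ K / (Λ * s) ^ 2)) →
      ∀ y1 y2 : M, H.d t z y1 ≤ 4 * s → H.d t z y2 ≤ 4 * s → (∀ x ∈ H.B t y1 (s / 8), F x = 1) →
        (∀ x ∈ H.B t y2 (s / 8), F x = 0) → False := by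
  have A := h.alg
  obtain ⟨β, β0, β1, hS⟩ := gSep h C t0 h0
  obtain ⟨Cu, hCu, hu⟩ := cs_up C h0
  obtain ⟨W, hW, hw⟩ := vol_cmp h.int h.evo
  obtain ⟨Cv, hCv, hV⟩ := C.up t0 h0
  obtain ⟨Q, hQ⟩ : ∃ Q, Q = 64 * K * Cu * W * Cv := ⟨_, rfl⟩
  have Q0 : 0 < Q := by rw [hQ]; positivity
  obtain ⟨θ, θ0, θ1, θ2⟩ : ∃ θ : ℝ, 0 < θ ∧ θ ≤ 1 / 16 ∧ Q * θ ≤ β / 4 :=
    ⟨min (1 / 16) (β / 4 / Q), by positivity, min_le_left _ _, by
      rw [← le_div_iff₀' Q0]; exact min_le_right _ _⟩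
  obtain ⟨Λ, Λ1, Λ2⟩ : ∃ Λ : ℝ, 16 ≤ Λ ∧ 16 * K / β ≤ Λ := ⟨_, le_max_left _ _, le_max_right _ _⟩
  refine ⟨θ, Λ, β, θ0, θ1, Λ1, β0,
    fun {a t ε τ0 s B z v F} ha c s0 s1 l1 l2 hR sF F01 F0 gF y1 y2 d1 d2 f1 f2 => ?_⟩
  have s2 : 0 < s ^ 2 := by positivity
  have hσ : t - s ^ 2 ∈ Icc (t - 2 * s ^ 2) (t - s ^ 2) := ⟨by linarith, le_rfl⟩
  have k := hS ha c s0 s1 l1 _ hσ (by linarith) sF F01 y1 y2 d1 d2 f1 f2
  have hm : t - s ^ 2 ∈ Icc a t := ⟨by linarith, by linarith⟩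
  have hT := c.st.mem (right_mem_Icc.2 c.st.2.1.le)
  have hs := c.st.mem hm
  have st : H.St (t - 2 * s ^ 2) t := c.st.mono l2 (by linarith) le_rfl
  have vp := cs_pos h c _ hm
  have iv := A.integrable h.int hs (cs_s0 h c hm)
  have := h.int.fin _ hs
  have mB := h.dist.meas_B hT z (2 * θ * s)
  have k1 : ∫ x, H.gam (t - s ^ 2) F F x * v (t - s ^ 2) x ∂H.vol (t - s ^ 2) ≤
      ∫ x, (4 * (K / (Λ * s) ^ 2) * v (t - s ^ 2) x + (H.B t z (2 * θ * s)).indicator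
        (fun _ => 4 * (K / (θ * s) ^ 2) * (Cu / s ^ 4)) x) ∂H.vol (t - s ^ 2) := by
    refine integral_mono (A.integrable h.int hs (A.s0_mul (A.s0_gam hs sF sF) (cs_s0 h c hm)))
      ((iv.const_mul _).add ((integrable_const _).indicator mB)) fun x => ?_
    have pv := vp x
    have i0 : 0 ≤ (H.B t z (2 * θ * s)).indicator
        (fun _ => 4 * (K / (θ * s) ^ 2) * (Cu / s ^ 4)) x :=
      indicator_nonneg (fun _ _ => by positivity) x
    by_cases hx : x ∈ H.An t z (θ * s) (Λ * s)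
    swap
    · simp only [gam_ev_zero A hs sF (F0 x hx), zero_mul]
      positivity
    have g := gam_cmp A h.evo st sF (fun r hr => (hR r hr x hx).2.1)
      (le_of_eq (by field_simp; ring)) (s := t - s ^ 2) ⟨by linarith, by linarith⟩
      (right_mem_Icc.2 st.2.1.le)
    by_cases hb : x ∈ H.B t z (2 * θ * s)
    · simp only [indicator_of_mem hb]
      have g2 := hu ha c s0 _ le_rfl hm.1 x
      have g3 : 4 * (K / (θ * s) ^ 2) * v (t - s ^ 2) x ≤ 4 * (K / (θ * s) ^ 2) * (Cu / s ^ 4) := by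
        gcongr
      nlinarith [(gF x hx).1]
    · nlinarith [(gF x hx).2 (not_lt.1 hb)]
  rw [integral_add (iv.const_mul _) ((integrable_const _).indicator mB), integral_const_mul,
    cs_mass h c hm, integral_indicator mB, setIntegral_const, smul_eq_mul] at k1
  have k2 := (hw t hT _ hs (H.B t z (2 * θ * s))).trans (mul_le_mul_of_nonneg_left
    (hV t ⟨ha.trans c.st.2.1.le, hT.2⟩ z (2 * θ * s) (by positivity)) hW.le)
  have k3 := mul_le_mul_of_nonneg_right k2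
    (show 0 ≤ 4 * (K / (θ * s) ^ 2) * (Cu / s ^ 4) by positivity)
  have k4 := mul_le_mul_of_nonneg_left (k1.trans (add_le_add le_rfl k3)) s2.le
  have Λ0 : 0 < Λ := by linarith
  have e : s ^ 2 * (4 * (K / (Λ * s) ^ 2) * 1 + W * (Cv * (2 * θ * s) ^ 4) *
      (4 * (K / (θ * s) ^ 2) * (Cu / s ^ 4))) = 4 * K / Λ ^ 2 + Q * θ * θ := by
    rw [hQ]; field_simp; ring
  have k5 : 4 * K / Λ ^ 2 ≤ β / 4 := by
    rw [div_le_iff₀ β0] at Λ2
    rw [div_le_iff₀ (by positivity)]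
    nlinarith [mul_pos β0 Λ0]
  have k6 : Q * θ * θ ≤ β / 4 := by nlinarith
  linarith

theorem ball_an (D : H.Dist) {t : ℝ} (ht : t ∈ Ioo 0 H.T) {z x w : M} {r : ℝ}
    (hw : H.d t x w < r) : H.d t z x - r < H.d t z w ∧ H.d t z w < H.d t z x + r := by
  have h1 := D.tri t ht z x w
  have h2 := D.tri t ht z w x
  rw [D.symm t ht w x] at h2
  constructor <;> linarith

/-- from the long annulus to the short one -/
theorem an_red (h : H.Ok) {t s : ℝ} (ht : t ∈ Ioo 0 H.T) (hs : 0 < s) {z x : M}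
    (hx : s ≤ H.d t z x) : ∃ y, s / 2 ≤ H.d t z y ∧ H.d t z y ≤ 4 * s ∧
      H.d t x y < H.d t z x - s / 2 := by
  obtain ⟨y, h1, h2⟩ := mid h.alg h.dist ht (x := z) (y := x) (a := s) (b := H.d t z x - s / 2) hs
    (by linarith) (by linarith)
  exact ⟨y, by linarith [(ball_an h.dist ht (z := z) h2).1], by linarith, h2⟩

end Crest.Agent.N207.Ge

end
end

-- ▼ part N207/G/EnO2
section

/-!
# Row 207, block G, entropy half (helper49): oscillation on annuli, one end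
-/

set_option autoImplicit false
set_option linter.dupNamespace false
set_option linter.unusedSectionVars false
open Set MeasureTheory Filter Topology
open scoped ContDiff Manifold

noncomputable section

namespace Crest.Agent.N207.Ge

open HC

section

variable {M : Type*} [TopologicalSpace M] [CompactSpace M] [MeasurableSpace M]
  [OpensMeasurableSpace M] {H : HC M}

/-- the cutoff of the annulus `θ s ≤ d ≤ Λ s` -/
theorem an_cut (h : H.Ok) : ∃ K : ℝ, 1 ≤ K ∧ ∀ t ∈ Ioo 0 H.T, ∀ (z : M) (θ Λ s : ℝ), 0 < θ →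
    θ ≤ 1 / 16 → 16 ≤ Λ → 0 < s → ∃ χ, H.S0 χ ∧ (∀ x, 0 ≤ χ x ∧ χ x ≤ 1) ∧
      (∀ y, s / 2 ≤ H.d t z y → H.d t z y ≤ 4 * s → ∀ x ∈ H.B t y (s / 8), χ x = 1) ∧
      (∀ x, H.d t z x ≤ θ * s ∨ Λ * s ≤ H.d t z x → χ =ᶠ[𝓝 x] fun _ => 0) ∧
      ∀ x, H.gam t χ χ x ≤ K / (θ * s) ^ 2 + K / (Λ * s) ^ 2 ∧
        (2 * θ * s ≤ H.d t z x → H.gam t χ χ x ≤ K / (Λ * s) ^ 2) := by
  obtain ⟨K, hK, hc⟩ := gCut h
  refine ⟨4 * K, by linarith, fun t ht z θ Λ s θ0 θ1 Λ1 s0 => ?_⟩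
  obtain ⟨χ, sχ, χ0, χ1, χ2, χ3⟩ := hc t ht z (θ * s) (2 * θ * s) (Λ * s / 2) (Λ * s)
    (by nlinarith) (by nlinarith) (by nlinarith)
  have Λ0 : 0 < Λ := by linarith
  have k : ∀ x, 2 * θ * s ≤ H.d t z x → H.gam t χ χ x ≤ 4 * K / (Λ * s) ^ 2 := fun x hx =>
    ((χ3 x).2 hx).trans (le_of_eq (by field_simp; ring))
  refine ⟨χ, sχ, χ0, fun y h1 h2 x hx => ?_, χ2, fun x => ⟨?_, k x⟩⟩
  · obtain ⟨a1, a2⟩ := ball_an h.dist ht (z := z) (show H.d t y x < s / 8 from hx)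
    exact (χ1 x ⟨by nlinarith, by nlinarith⟩).eq_of_nhds
  · rcases le_total (2 * θ * s) (H.d t z x) with hx | hx
    · exact (k x hx).trans (le_add_of_nonneg_left (by positivity))
    · refine (((χ3 x).1 (by nlinarith)).trans ?_).trans (le_add_of_nonneg_right (by positivity))
      rw [show 2 * θ * s - θ * s = θ * s by ring]
      gcongr; linarith

theorem not_an {t r R : ℝ} {z x : M} (hx : x ∉ H.An t z r R) :
    H.d t z x ≤ r ∨ R ≤ H.d t z x := by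
  by_contra hn
  push Not at hn
  exact hx ⟨hn.1.le, hn.2.le⟩

theorem gOsc (h : H.Ok) (C : H.COut) : H.GOsc := fun t0 h0 => by
  have Al := h.alg
  obtain ⟨K1, hK1, hc⟩ := an_cut h
  obtain ⟨K2, hK2, hb⟩ := cut1 Al
  obtain ⟨θ, Λ, β, θ0, θ1, Λ1, β0, hS⟩ := noSep h C h0 (K := 2 * K1 + 8 * K2) (by linarith)
  refine ⟨θ, Λ, β, θ0, by linarith, by linarith, β0,
    fun {a t ε τ0 s A B γ z v u} ha c s0 s1 l1 l2 hA hR su γ0 gu => ?_⟩
  have hT := c.st.mem (right_mem_Icc.2 c.st.2.1.le)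
  have Λ0 : 0 < Λ := by linarith
  obtain ⟨χ, sχ, χ0, χ1, χ2, χ3⟩ := hc t hT z θ Λ s θ0 θ1 Λ1 s0
  have lip : ∀ y, s / 2 ≤ H.d t z y → H.d t z y ≤ 4 * s → ∀ x ∈ H.B t y (s / 8),
      |u x - u y| ≤ γ * s / 8 := fun y h1 h2 x hx => by
    have hx' : H.d t y x < s / 8 := hx
    refine (lip_ball Al h.dist hT su γ0 (fun w hw => gu w ?_) hx').trans (by nlinarith)
    obtain ⟨a1, a2⟩ := ball_an h.dist hT (z := z) hw
    exact ⟨by nlinarith, by nlinarith⟩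
  have p0 : 0 < γ * s := by positivity
  have p1 : 16 * (γ * s) ≤ Λ * (γ * s) := by gcongr
  have k : ∀ y1 y2, s / 2 ≤ H.d t z y1 → H.d t z y1 ≤ 4 * s → s / 2 ≤ H.d t z y2 →
      H.d t z y2 ≤ 4 * s → u y1 - u y2 ≤ Λ * (γ * s) / 2 := fun y1 y2 a1 a2 b1 b2 => by
    by_contra hn
    obtain ⟨b, sb, b0, c1, c2, c3⟩ := hb su (u y2) (Λ * (γ * s) / 2) (by positivity)
    refine hS ha c s0 s1 l1 l2 hR (Al.s0_mul sχ sb) (fun x => ?_) (fun x hx => ?_)
      (fun x hx => ?_) y2 y1 b2 a2 (fun x hx => ?_) fun x hx => ?_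
    · have := χ0 x; have := b0 x
      constructor <;> nlinarith
    · filter_upwards [χ2 x (not_an hx)] with y hy
      rw [hy, zero_mul]
    · have g := gam_mul_le Al hT sχ sb x
      have g1 : H.gam t b b x ≤ 4 * K2 / (Λ * s) ^ 2 := by
        refine (c3 t hT x).trans ((mul_le_mul_of_nonneg_left
          (gu x ⟨hx.1, hx.2.trans (by nlinarith)⟩) (by positivity)).trans (le_of_eq ?_))
        field_simp; ring
      have g2 := Al.gam_nonneg t hT sb x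
      have g3 := Al.gam_nonneg t hT sχ x
      have q1 : χ x ^ 2 ≤ 1 := by nlinarith [χ0 x]
      have q2 : b x ^ 2 ≤ 1 := by nlinarith [b0 x]
      have g4 : H.gam t (fun y => χ y * b y) (fun y => χ y * b y) x ≤
          2 * (4 * K2 / (Λ * s) ^ 2) + 2 * H.gam t χ χ x := by nlinarith
      have e1 : (2 * K1 + 8 * K2) / (Λ * s) ^ 2 =
          2 * (4 * K2 / (Λ * s) ^ 2) + 2 * (K1 / (Λ * s) ^ 2) := by ring
      have e2 : 2 * (K1 / (θ * s) ^ 2) ≤ (2 * K1 + 8 * K2) / (θ * s) ^ 2 := by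
        rw [← mul_div_assoc]; gcongr; linarith
      exact ⟨by linarith [(χ3 x).1], fun hd => by linarith [(χ3 x).2 hd]⟩
    · rw [χ1 y2 b1 b2 x hx, (c1 x (by linarith [(abs_le.1 (lip y2 b1 b2 x hx)).2])).eq_of_nhds,
        one_mul]
    · rw [(c2 x (by linarith [(abs_le.1 (lip y1 a1 a2 x hx)).1])).eq_of_nhds, mul_zero]
  by_cases hne : ∃ y0, s / 2 ≤ H.d t z y0 ∧ H.d t z y0 ≤ 4 * s
  swap
  · refine ⟨0, fun x hx => absurd ?_ hne⟩
    obtain ⟨y, h1, h2, -⟩ := an_red h hT s0 hx.1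
    exact ⟨y, h1, h2⟩
  obtain ⟨y0, a1, a2⟩ := hne
  refine ⟨u y0, fun x hx => ?_⟩
  obtain ⟨y, h1, h2, h3⟩ := an_red h hT s0 hx.1
  have hx2 := hx.2
  have k1 := abs_le.1 (lip_ball Al h.dist hT su γ0 (fun w hw => gu w (by
    obtain ⟨a1, a2⟩ := ball_an h.dist hT (z := z) hw
    exact ⟨by nlinarith, by nlinarith⟩)) h3)
  have k2 : γ * H.d t x y ≤ γ * (A * s) := by gcongr; linarith
  have k3 := k y y0 h1 h2 a1 a2
  have k4 := k y0 y a1 a2 h1 h2
  rw [abs_le]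
  constructor <;> nlinarith

theorem cc_ball (D : H.Dist) {t : ℝ} (ht : t ∈ Ioo 0 H.T) {O : Set M} {x w : M} {r : ℝ}
    (hO : ∀ w, H.d t x w < r → w ∈ O) (hw : H.d t x w < r) :
    connectedComponentIn O x = connectedComponentIn O w := by
  obtain ⟨K, hK, h1, h2, h3⟩ := D.conn t ht hw
  exact connectedComponentIn_eq (hK.subset_connectedComponentIn h1 (fun y hy => hO y (h3 y hy)) h2)

theorem gOne (h : H.Ok) (C : H.COut) (L : H.Loc0) : H.GOne := fun t0 h0 => by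
  classical
  have Al := h.alg
  obtain ⟨K, hK, hc⟩ := an_cut h
  obtain ⟨θ, Λ, β, θ0, θ1, Λ1, β0, hS⟩ := noSep h C h0 (K := K) (by linarith)
  refine ⟨θ, Λ, β, θ0, by linarith, by linarith, β0,
    fun {a t ε τ0 s A B z v} ha c s0 s1 l1 l2 hA hR => ?_⟩
  have hT := c.st.mem (right_mem_Icc.2 c.st.2.1.le)
  obtain ⟨χ, sχ, χ0, χ1, χ2, χ3⟩ := hc t hT z θ Λ s θ0 θ1 Λ1 s0
  set O : Set M := {x | θ * s < H.d t z x ∧ H.d t z x < 2 * A * s} with hO
  have sm : ∀ y, s / 2 ≤ H.d t z y → H.d t z y ≤ 4 * s → ∀ x ∈ H.B t y (s / 8),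
      connectedComponentIn O y = connectedComponentIn O x := fun y h1 h2 x hx =>
    cc_ball h.dist hT (fun w hw => by
      obtain ⟨a1, a2⟩ := ball_an h.dist hT (z := z) hw
      exact ⟨by nlinarith, by nlinarith⟩) hx
  have loc : ∀ x ∈ O, ∀ᶠ w in 𝓝 x, connectedComponentIn O x = connectedComponentIn O w := by
    intro x hx
    have r0 : 0 < min (H.d t z x - θ * s) (2 * A * s - H.d t z x) :=
      lt_min (sub_pos.2 hx.1) (sub_pos.2 hx.2)
    filter_upwards [(isOpen_B h.dist hT x _).mem_nhds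
      (show H.d t x x < _ by rw [h.dist.self t hT]; exact r0)] with w hw
    refine cc_ball h.dist hT (fun w hw => ?_) hw
    obtain ⟨a1, a2⟩ := ball_an h.dist hT (z := z) hw
    exact ⟨by linarith [min_le_left (H.d t z x - θ * s) (2 * A * s - H.d t z x)],
      by linarith [min_le_right (H.d t z x - θ * s) (2 * A * s - H.d t z x)]⟩
  have k : ∀ y1 y2, s / 2 ≤ H.d t z y1 → H.d t z y1 ≤ 4 * s → s / 2 ≤ H.d t z y2 →
      H.d t z y2 ≤ 4 * s → connectedComponentIn O y1 = connectedComponentIn O y2 :=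
    fun y1 y2 a1 a2 b1 b2 => by
    by_contra hn
    set F : M → ℝ := fun x =>
      if connectedComponentIn O x = connectedComponentIn O y2 then χ x else 0 with hF
    have z0 : ∀ x, (χ =ᶠ[𝓝 x] fun _ => 0) → F =ᶠ[𝓝 x] fun _ => 0 := fun x hx =>
      hx.mono fun y hy => by simp only [hF, hy, ite_self]
    have alt : ∀ x, F =ᶠ[𝓝 x] χ ∨ F =ᶠ[𝓝 x] fun _ => 0 := fun x => by
      by_cases hx : x ∈ O
      · by_cases hy : connectedComponentIn O x = connectedComponentIn O y2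
        · exact Or.inl ((loc x hx).mono fun w hw => if_pos (hw ▸ hy))
        · exact Or.inr ((loc x hx).mono fun w hw => if_neg (hw ▸ hy))
      · refine Or.inr (z0 x (χ2 x ?_))
        by_contra hn
        push Not at hn
        exact hx ⟨hn.1, hn.2.trans_le (by nlinarith)⟩
    have sF : H.S0 F := L F fun x => (alt x).elim (fun e => ⟨χ, sχ, e⟩)
      fun e => ⟨_, Al.s0_const 0, e⟩
    refine hS ha c s0 s1 l1 l2 hR sF (fun x => ?_) (fun x hx => z0 x (χ2 x (not_an hx)))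
      (fun x _ => ?_) y2 y1 b2 a2 (fun x hx => ?_) fun x hx => if_neg (sm y1 a1 a2 x hx ▸ hn)
    · simp only [hF]
      split_ifs
      exacts [χ0 x, ⟨le_rfl, zero_le_one⟩]
    · rcases alt x with e | e
      · rw [gam_local Al hT sF sχ sF sχ e e]; exact χ3 x
      · rw [gam_ev_zero Al hT sF e]
        exact ⟨by positivity, fun _ => by positivity⟩
    · exact (if_pos (sm y2 b1 b2 x hx).symm).trans (χ1 y2 b1 b2 x hx)
  by_cases hne : ∃ y0, s / 2 ≤ H.d t z y0 ∧ H.d t z y0 ≤ 4 * s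
  swap
  · refine ⟨∅, isPreconnected_empty, fun x hx => absurd ?_ hne, empty_subset _⟩
    obtain ⟨y, h1, h2, -⟩ := an_red h hT s0 hx.1
    exact ⟨y, h1, h2⟩
  obtain ⟨y0, a1, a2⟩ := hne
  refine ⟨connectedComponentIn O y0, isPreconnected_connectedComponentIn, fun x hx => ?_,
    fun x hx => ?_⟩
  · obtain ⟨y, h1, h2, h3⟩ := an_red h hT s0 hx.1
    have hx1 := hx.1
    have hx2 := hx.2
    have k1 := cc_ball h.dist hT (O := O) (fun w hw => by
      obtain ⟨a1, a2⟩ := ball_an h.dist hT (z := z) hw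
      exact ⟨by nlinarith, by nlinarith⟩) h3
    rw [← k y y0 h1 h2 a1 a2, ← k1]
    exact mem_connectedComponentIn ⟨by nlinarith, by nlinarith⟩
  · have := connectedComponentIn_subset O y0 hx
    exact ⟨this.1.le, this.2.le⟩

end

variable {M : Type*} [TopologicalSpace M] [ChartedSpace E4 M] [IsManifold 𝓘(ℝ, E4) ∞ M]
  [T3Space M] [ConnectedSpace M] [MeasurableSpace M] [BorelSpace M]

theorem loc0 (F : Flow M) : F.hc.Loc0 := fun _ hu x => by
  obtain ⟨w, hw, e⟩ := hu x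
  exact (hw x).congr_of_eventuallyEq e

theorem gOne' [CompactSpace M] (F : Flow M) (h : F.hc.Ok) (C : F.hc.COut) : F.hc.GOne :=
  gOne h C (loc0 F)

end Crest.Agent.N207.Ge

end
end

-- ▼ part N207/V/Hs1
section

/-!
# Row 207 (helper97): Hessian estimates, real algebra
-/

set_option autoImplicit false
set_option linter.unusedSectionVars false

namespace Crest.Agent.N207.Hs

open Finset

variable {n : ℕ}

lemma cs0 {ι : Type*} [Fintype ι] (f g : ι → ℝ) :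
    |∑ i, f i * g i| ≤ √(∑ i, f i ^ 2) * √(∑ i, g i ^ 2) := by
  rw [← Real.sqrt_mul (sum_nonneg fun _ _ => sq_nonneg _)]
  exact Real.abs_le_sqrt (sum_mul_sq_le_sq_mul_sq _ _ _)

lemma cs2 (f g : Fin n → Fin n → ℝ) : |∑ a, ∑ b, f a b * g a b| ≤
    √(∑ a, ∑ b, f a b ^ 2) * √(∑ a, ∑ b, g a b ^ 2) := by
  have := cs0 (fun p : Fin n × Fin n => f p.1 p.2) fun p => g p.1 p.2
  simpa only [Fintype.sum_prod_type] using this

lemma cs3 (f g : Fin n → Fin n → Fin n → ℝ) : |∑ a, ∑ b, ∑ c, f a b c * g a b c| ≤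
    √(∑ a, ∑ b, ∑ c, f a b c ^ 2) * √(∑ a, ∑ b, ∑ c, g a b c ^ 2) := by
  have := cs0 (fun p : Fin n × Fin n × Fin n => f p.1 p.2.1 p.2.2) fun p => g p.1 p.2.1 p.2.2
  simpa only [Fintype.sum_prod_type] using this

lemma cs4 (f g : Fin n → Fin n → Fin n → Fin n → ℝ) :
    |∑ a, ∑ b, ∑ c, ∑ d, f a b c d * g a b c d| ≤
    √(∑ a, ∑ b, ∑ c, ∑ d, f a b c d ^ 2) * √(∑ a, ∑ b, ∑ c, ∑ d, g a b c d ^ 2) := by
  have := cs0 (fun p : Fin n × Fin n × Fin n × Fin n => f p.1 p.2.1 p.2.2.1 p.2.2.2)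
    fun p => g p.1 p.2.1 p.2.2.1 p.2.2.2
  simpa only [Fintype.sum_prod_type] using this

lemma nn2 (f : Fin n → Fin n → ℝ) : 0 ≤ ∑ a, ∑ b, f a b ^ 2 :=
  sum_nonneg fun _ _ => sum_nonneg fun _ _ => sq_nonneg _

lemma nn1 (f : Fin n → ℝ) : 0 ≤ ∑ a, f a ^ 2 := sum_nonneg fun _ _ => sq_nonneg _

/-- `|Rm(T, T)| ≤ |Rm| |T|²` -/
lemma rm_TT (r : Fin n → Fin n → Fin n → Fin n → ℝ) (T : Fin n → Fin n → ℝ) :
    |∑ j, ∑ k, (∑ b, ∑ e, T b e * r b j k e) * T j k| ≤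
      √(∑ a, ∑ b, ∑ c, ∑ d, r a b c d ^ 2) * ∑ a, ∑ b, T a b ^ 2 := by
  have h := cs4 r fun b j k e => T b e * T j k
  have e1 : ∑ b, ∑ j, ∑ k, ∑ e, (T b e * T j k) ^ 2 = (∑ a, ∑ b, T a b ^ 2) ^ 2 := by
    rw [sq (∑ a, ∑ b, T a b ^ 2), sum_mul]
    refine sum_congr rfl fun b _ => ?_
    simp only [mul_sum, sum_mul, mul_pow]
  have e2 : ∑ j, ∑ k, (∑ b, ∑ e, T b e * r b j k e) * T j k
      = ∑ b, ∑ j, ∑ k, ∑ e, r b j k e * (T b e * T j k) := by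
    simp only [sum_mul]
    rw [sum_congr rfl fun j _ => sum_comm, sum_comm]
    exact sum_congr rfl fun _ _ => sum_congr rfl fun _ _ => sum_congr rfl fun _ _ =>
      sum_congr rfl fun _ _ => by ring
  rwa [e1, Real.sqrt_sq (nn2 T), ← e2] at h

lemma mm_le (A B : Fin n → Fin n → ℝ) :
    √(∑ k, ∑ l, (∑ m, A k m * B l m) ^ 2) ≤
      √(∑ a, ∑ b, A a b ^ 2) * √(∑ a, ∑ b, B a b ^ 2) := by
  rw [← Real.sqrt_mul (nn2 A), sum_mul_sum]
  exact Real.sqrt_le_sqrt (sum_le_sum fun k _ => sum_le_sum fun l _ =>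
    sum_mul_sq_le_sq_mul_sq _ _ _)

lemma mm_T (A B T : Fin n → Fin n → ℝ) :
    |∑ k, ∑ l, (∑ m, A k m * B l m) * T k l| ≤
      √(∑ a, ∑ b, A a b ^ 2) * √(∑ a, ∑ b, B a b ^ 2) * √(∑ a, ∑ b, T a b ^ 2) :=
  (cs2 _ T).trans (mul_le_mul_of_nonneg_right (mm_le A B) (Real.sqrt_nonneg _))

lemma d3_T (D : Fin n → Fin n → Fin n → ℝ) (X : Fin n → ℝ) (T : Fin n → Fin n → ℝ) :
    |∑ k, ∑ l, (∑ m, D k l m * X m) * T k l| ≤
      √(∑ a, ∑ b, ∑ c, D a b c ^ 2) * √(∑ a, X a ^ 2) * √(∑ a, ∑ b, T a b ^ 2) := by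
  have h := cs3 D fun k l m => X m * T k l
  have e1 : ∑ k, ∑ l, ∑ m, (X m * T k l) ^ 2 = (∑ a, X a ^ 2) * ∑ a, ∑ b, T a b ^ 2 := by
    simp only [mul_sum, sum_mul, mul_pow]
  have e2 : ∑ k, ∑ l, (∑ m, D k l m * X m) * T k l = ∑ k, ∑ l, ∑ m, D k l m * (X m * T k l) := by
    simp only [sum_mul, mul_assoc]
  rwa [e1, Real.sqrt_mul (nn1 X), ← mul_assoc, ← e2] at h

/-- in dimension four, `|Rm|² |X|² ≤ 8 |Rm(X, ·, ·, ·)|² + 88 |Ric|² |X|²` -/
theorem lanczos_le (R : Fin 4 → Fin 4 → Fin 4 → Fin 4 → ℝ)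
    (h1 : ∀ a b c d, R b a c d = -R a b c d) (h2 : ∀ a b c d, R a b d c = -R a b c d)
    (h3 : ∀ a b c d, R c d a b = R a b c d)
    (h4 : ∀ a b c d, R a b c d + R a c d b + R a d b c = 0)
    (rc : Fin 4 → Fin 4 → ℝ) (hrc : ∀ k j, rc k j = ∑ a, R a k a j) (X : Fin 4 → ℝ) :
    (∑ a, ∑ b, ∑ c, ∑ d, R a b c d ^ 2) * ∑ a, X a ^ 2 ≤
      8 * (∑ k, ∑ i, ∑ j, (∑ l, R l k i j * X l) ^ 2)
        + 88 * ((∑ a, ∑ b, rc a b ^ 2) * ∑ a, X a ^ 2) := by
  have L := Gb.lanczos R h1 h2 h3 h4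
  simp only [← hrc] at L
  set N := ∑ a, ∑ b, ∑ c, ∑ d, R a b c d ^ 2 with hN
  set Q := ∑ a, ∑ b, rc a b ^ 2 with hQ
  set s := ∑ a, rc a a with hs
  set Y := ∑ a, X a ^ 2 with hY
  have e0 : ∑ l, ∑ m, X l * X m * ((if l = m then 1 else 0) * (N - 4 * Q + s ^ 2))
      = Y * (N - 4 * Q + s ^ 2) := by
    simp only [ite_mul, one_mul, zero_mul, mul_ite, mul_zero, sum_ite_eq, mem_univ, if_true, hY,
      sum_mul, sq]
  have eA : ∑ l, ∑ m, X l * X m * ∑ k, ∑ i, ∑ j, R l k i j * R m k i j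
      = ∑ k, ∑ i, ∑ j, (∑ l, R l k i j * X l) ^ 2 := by
    have e : ∀ k i j, (∑ l, R l k i j * X l) ^ 2
        = ∑ l, ∑ m, X l * X m * (R l k i j * R m k i j) := fun k i j => by
      simp only [Fin.sum_univ_four]; ring
    simp only [e, mul_sum]
    rw [sum_congr rfl fun l _ => (Gb.s4_out _).symm, ← Gb.s4_out]
  have eE : 0 ≤ ∑ l, ∑ m, X l * X m * ∑ k, rc l k * rc m k := by
    have : ∑ l, ∑ m, X l * X m * ∑ k, rc l k * rc m k = ∑ k, (∑ l, rc l k * X l) ^ 2 := by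
      simp only [Fin.sum_univ_four]; ring
    rw [this]; exact nn1 _
  have hY0 : 0 ≤ Y := nn1 X
  have hQ0 : 0 ≤ Q := nn2 rc
  have hN0 : 0 ≤ N := sum_nonneg fun _ _ => sum_nonneg fun _ _ => nn2 _
  have eB : |∑ l, ∑ m, X l * X m * ∑ k, ∑ j, R l k m j * rc k j| ≤ √N * (√Q * Y) := by
    have h := cs4 R fun l k m j => X l * X m * rc k j
    have e1 : ∑ l, ∑ k, ∑ m, ∑ j, (X l * X m * rc k j) ^ 2 = Q * Y ^ 2 := by
      simp only [hQ, hY, Fin.sum_univ_four]; ring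
    have e2 : ∑ l, ∑ m, X l * X m * ∑ k, ∑ j, R l k m j * rc k j
        = ∑ l, ∑ k, ∑ m, ∑ j, R l k m j * (X l * X m * rc k j) := by
      refine sum_congr rfl fun l _ => ?_
      simp only [mul_sum]
      rw [sum_comm]
      exact sum_congr rfl fun _ _ => sum_congr rfl fun _ _ => sum_congr rfl fun _ _ => by ring
    rwa [e1, Real.sqrt_mul hQ0, Real.sqrt_sq hY0, ← e2] at h
  have eF : |∑ l, ∑ m, X l * X m * rc l m| ≤ Y * √Q := by
    have h := cs2 (fun l m => X l * X m) rc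
    have e1 : ∑ l, ∑ m, (X l * X m) ^ 2 = Y ^ 2 := by
      simp only [hY, Fin.sum_univ_four]; ring
    rwa [e1, Real.sqrt_sq hY0] at h
  have es : |s| ≤ 2 * √Q := by
    have h := cs2 (fun l m : Fin 4 => if l = m then (1 : ℝ) else 0) rc
    have e1 : √(∑ l : Fin 4, ∑ m : Fin 4, (if l = m then (1 : ℝ) else 0) ^ 2) = 2 := by
      rw [show (∑ l : Fin 4, ∑ m : Fin 4, (if l = m then (1 : ℝ) else 0) ^ 2) = 2 ^ 2 by
        simp; norm_num, Real.sqrt_sq zero_le_two]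
    rw [e1] at h
    simpa only [ite_mul, one_mul, zero_mul, sum_ite_eq, mem_univ, if_true] using h
  have key : Y * (N - 4 * Q + s ^ 2) = 4 * (∑ k, ∑ i, ∑ j, (∑ l, R l k i j * X l) ^ 2)
      - 8 * (∑ l, ∑ m, X l * X m * ∑ k, ∑ j, R l k m j * rc k j)
      - 8 * (∑ l, ∑ m, X l * X m * ∑ k, rc l k * rc m k)
      + 4 * s * ∑ l, ∑ m, X l * X m * rc l m := by
    rw [← e0, ← eA]
    simp only [mul_sum (s := univ) (a := (4 : ℝ)), mul_sum (s := univ) (a := (8 : ℝ)),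
      mul_sum (s := univ) (a := 4 * s), ← sum_add_distrib, ← sum_sub_distrib]
    refine sum_congr rfl fun l _ => sum_congr rfl fun m _ => ?_
    rw [← L l m]; ring
  have f1 := (abs_le.1 eB).1
  have f2 : s * ∑ l, ∑ m, X l * X m * rc l m ≤ 2 * √Q * (Y * √Q) :=
    (le_abs_self _).trans (by
      rw [abs_mul]; exact mul_le_mul es eF (abs_nonneg _) (by positivity))
  have g1 := Real.sq_sqrt hQ0
  have g2 := Real.sq_sqrt hN0
  have f3 : 8 * (√N * √Q) ≤ N / 2 + 32 * Q := by nlinarith [sq_nonneg (√N - 8 * √Q)]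
  have f4 := mul_le_mul_of_nonneg_right f3 hY0
  have f5 : 2 * √Q * (Y * √Q) = 2 * (Q * Y) := by linear_combination 2 * Y * g1
  nlinarith [mul_nonneg hY0 (sq_nonneg s)]

lemma sub_sw_le (D : Fin n → Fin n → Fin n → ℝ) :
    ∑ k, ∑ i, ∑ j, (D i j k - D j i k) ^ 2 ≤ 4 * ∑ a, ∑ b, ∑ c, D a b c ^ 2 := by
  have e1 : ∑ k, ∑ i, ∑ j, D i j k ^ 2 = ∑ a, ∑ b, ∑ c, D a b c ^ 2 :=
    (Gb.s3_rot fun a b c => D a b c ^ 2).symm
  have e2 : ∑ k, ∑ i, ∑ j, D j i k ^ 2 = ∑ a, ∑ b, ∑ c, D a b c ^ 2 := by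
    rw [← e1]; exact sum_congr rfl fun _ _ => sum_comm
  calc _ ≤ ∑ k, ∑ i, ∑ j, (2 * D i j k ^ 2 + 2 * D j i k ^ 2) :=
        sum_le_sum fun k _ => sum_le_sum fun i _ => sum_le_sum fun j _ => by
          nlinarith [sq_nonneg (D i j k + D j i k)]
    _ = _ := by simp only [sum_add_distrib, ← mul_sum, e1, e2]; ring

end Crest.Agent.N207.Hs
end

-- ▼ part N207/V/Hs2
section

/-!
# Row 207 (helper97): Hessian estimates over a differential ring
-/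

set_option autoImplicit false
set_option linter.unusedSectionVars false

namespace Crest.Agent.N207.A

open Finset Hs

variable {n p : ℕ} {S : Type*} [CommRing S] [Algebra ℝ S]

/-- `Hess f - c g` -/
noncomputable def Co.hsC (C : Co n S) (f : S) (c : ℝ) : Ten n S 2 :=
  C.hessT f - algebraMap ℝ S c • matT C.g

lemma hs_cd (C : Co n S) (f : S) (c : ℝ) {δ : Derivation ℝ S S} {ω : Matrix (Fin n) (Fin n) S}
    (h : cd δ ω (matT C.g) = 0) : cd δ ω (C.hsC f c) = cd δ ω (C.hessT f) := by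
  rw [Co.hsC, cd_sub, cd_smul, h, Derivation.map_algebraMap, zero_smul, smul_zero, add_zero,
    sub_zero]

lemma Co.hs_cov (C : Co n S) (f : S) (c : ℝ) : C.cov (C.hsC f c) = C.cov (C.hessT f) :=
  ten_ext fun k y => by rw [Co.cov_cons, Co.cov_cons, hs_cd C f c (C.cd_g k)]

lemma Rf.hs_Dt (F : Rf n S) (f : S) (c : ℝ) : F.DtT (F.hsC f c) = F.DtT (F.hessT f) :=
  hs_cd F.toCo f c F.Dt_g

lemma Rf.hs_box (F : Rf n S) {f : S} (hf : F.dt f = F.lap0 f) (c : ℝ) :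
    F.boxT (F.hsC f c) = -((2 : S) • bet F.gi F.rmT (F.hessT f)) := by
  have h1 : F.boxT (F.hsC f c) = F.boxT (F.hessT f) := by
    rw [Rf.boxT, Rf.boxT, F.hs_Dt, Co.lapT, Co.lapT, Co.hs_cov]
  have h2 : F.dT (0 : S) = 0 := ext1 fun k => by rw [Co.dT_v1, map_zero]; rfl
  rw [h1, Co.hessT, F.box_cov, F.box_dT, hf, sub_self, h2, Co.cov_zero, zero_sub]

section Ev

variable (C : Co n S) (ev : S →+* ℝ) (h : ∀ a b, ev (C.gi a b) = if a = b then 1 else 0)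
include h

lemma hs_ev_g (a b : Fin n) : ev (C.g a b) = if a = b then 1 else 0 := by
  have h1 := congrArg ev (C.sum_gi_g a b)
  simp only [map_sum, map_mul, h, ite_mul, one_mul, zero_mul, sum_ite_eq, mem_univ, if_true] at h1
  rw [h1]; split_ifs <;> simp

lemma hs_ev_ip1 (A B : Ten n S 1) : ev (ip C.gi A B) = ∑ a, ev (A (v1 a)) * ev (B (v1 a)) := by
  simp only [ip_v1, gv_ev2 ev h, map_mul]

lemma hs_ev_ip3 (A B : Ten n S 3) : ev (ip C.gi A B)
    = ∑ a, ∑ b, ∑ c, ev (A (v3 a b c)) * ev (B (v3 a b c)) := by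
  simp only [ip_cons C.gi (p := 2), gv_ev2 ev h, gv_ev_ip2 ev h, sl_apply]

lemma hs_ev_raise (M : Ten n S 2) (k m : Fin n) : ev ((mat M * C.gi) k m) = ev (M (v2 k m)) := by
  simp only [Matrix.mul_apply, map_sum, map_mul, h, mul_ite, mul_one, mul_zero,
    sum_ite_eq', mem_univ, if_true, mat]

lemma hs_ev_hess (f : S) (c : ℝ) (hc : ev (algebraMap ℝ S c) = c) (a b : Fin n) :
    ev (C.hessT f (v2 a b)) = ev (C.hsC f c (v2 a b)) + if a = b then c else 0 := by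
  simp only [Co.hsC, Pi.sub_apply, Pi.smul_apply, smul_eq_mul, map_sub, map_mul, hc, matT_v2,
    hs_ev_g C ev h, mul_ite, mul_one, mul_zero, sub_add_cancel]

lemma hs_ev_bet (B : Ten n S 2) (j k : Fin n) : ev (bet C.gi C.rmT B (v2 j k))
    = ∑ b, ∑ e, ev (B (v2 b e)) * ev (C.rl b j k e) := by
  simp only [C.bet_two, Co.up_apply, map_sum, map_mul, h, ite_mul, one_mul, zero_mul, mul_ite,
    mul_one, mul_zero, sum_ite_eq, sum_ite_eq', mem_univ, if_true, Co.rmT_v4]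

lemma hs_ev_ric (k j : Fin n) : ev (C.ricc k j) = ∑ a, ev (C.rl a k a j) := by
  rw [C.ricc_eq, gv_ev2 ev h]

end Ev

/-- the heat inequality for `|Hess f - c g|²` -/
theorem Rf.hs_heat (F : Rf n S) (ev : S →+* ℝ)
    (h : ∀ a b, ev (F.gi a b) = if a = b then 1 else 0) {f : S} (hf : F.dt f = F.lap0 f) {c : ℝ}
    (hc : ev (algebraMap ℝ S c) = c) :
    ev (F.dt (F.nsq (F.hsC f c))) - ev (F.lap0 (F.nsq (F.hsC f c)))
      ≤ -2 * ev (F.nsq (F.cov (F.hessT f))) + 4 * (√(ev (F.nsq F.rmT)) * ev (F.nsq (F.hsC f c))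
        + |c| * √(ev (F.nsq F.ricT)) * √(ev (F.nsq (F.hsC f c)))) := by
  rw [← map_sub, F.box_nsq, F.hs_box hf, Co.hs_cov, gv_ip_negL, ip_smulL]
  have h1 := rm_TT (fun a b c d => ev (F.rl a b c d)) fun a b => ev (F.hsC f c (v2 a b))
  have h2 := cs2 (fun a b => ev (F.ricc a b)) fun a b => ev (F.hsC f c (v2 a b))
  have e : ∀ j k, ev (bet F.gi F.rmT (F.hessT f) (v2 j k))
      = ∑ b, ∑ e, ev (F.hsC f c (v2 b e)) * ev (F.rl b j k e) - c * ev (F.ricc j k) := by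
    intro j k
    rw [hs_ev_bet F.toCo ev h, hs_ev_ric F.toCo ev h]
    simp only [hs_ev_hess F.toCo ev h f c hc, add_mul, sum_add_distrib, ite_mul, zero_mul,
      sum_ite_eq, mem_univ, if_true, mul_sum, sub_eq_add_neg, ← sum_neg_distrib]
    congr 1
    exact sum_congr rfl fun b _ => by rw [F.rl_anti34 b j k b, map_neg]; ring
  have e2 : ev (ip F.gi (bet F.gi F.rmT (F.hessT f)) (F.hsC f c))
      = ∑ j, ∑ k, (∑ b, ∑ e, ev (F.hsC f c (v2 b e)) * ev (F.rl b j k e)) * ev (F.hsC f c (v2 j k))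
        - c * ∑ j, ∑ k, ev (F.ricc j k) * ev (F.hsC f c (v2 j k)) := by
    simp only [gv_ev_ip2 ev h, e, sub_mul, sum_sub_distrib, mul_sum, mul_assoc]
  simp only [map_sub, map_mul, map_neg, map_ofNat, e2, Co.nsq, gv_ev_ip2 ev h, gv_ev_ip4 ev h,
    Co.rmT_v4, Co.ricT_v2, ← sq]
  have h3 := (le_abs_self _).trans ((abs_mul c _).le.trans
    (mul_le_mul_of_nonneg_left h2 (abs_nonneg c)))
  have h4 := (abs_le.1 h1).1
  linarith

/-- the time derivative of `|Hess f - c g|²` for a static function -/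
theorem Rf.hs_stat (F : Rf n S) (ev : S →+* ℝ)
    (h : ∀ a b, ev (F.gi a b) = if a = b then 1 else 0) {f : S} (hf : F.dt f = 0) {c : ℝ}
    (hc : ev (algebraMap ℝ S c) = c) :
    |ev (F.dt (F.nsq (F.hsC f c)))| ≤ 6 * √(ev (F.nsq (F.hsC f c))) *
      (√(ev (F.nsq (F.cov F.ricT))) * √(ev (F.gam f f))
        + √(ev (F.nsq F.ricT)) * (√(ev (F.nsq (F.hsC f c))) + |c|)) := by
  set T : Fin n → Fin n → ℝ := fun a b => ev (F.hsC f c (v2 a b)) with hT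
  set D : Fin n → Fin n → Fin n → ℝ := fun a b c => ev (F.cov F.ricT (v3 a b c)) with hD
  set X : Fin n → ℝ := fun a => ev (F.d a f) with hX
  set r : Fin n → Fin n → ℝ := fun a b => ev (F.ricc a b) with hr
  have h0 : F.hessT (0 : S) = 0 := by
    have h2 : F.dT (0 : S) = 0 := ext1 fun k => by rw [Co.dT_v1, map_zero]; rfl
    rw [Co.hessT, h2, Co.cov_zero]
  have e : ∀ k l, ev (F.DtT (F.hessT f) (v2 k l)) = ∑ m, D k l m * X m + ∑ m, D l m k * X m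
      - ∑ m, D m l k * X m + (∑ m, T k m * r l m + c * r l k)
      + (∑ m, r k m * T m l + c * r k l) := by
    intro k l
    rw [F.Dt_hess, hf, h0]
    simp only [Pi.zero_apply, zero_add, map_add, map_sum, map_mul, hs_ev_raise F.toCo ev h,
      sl_apply, Co.Om_eq, map_sub, hs_ev_hess F.toCo ev h f c hc, Co.ricT_v2, mul_add, mul_ite,
      mul_zero, sum_add_distrib, sum_ite_eq, sum_ite_eq', mem_univ, if_true, add_mul, sub_mul,
      sum_sub_distrib, hT, hD, hX, hr, mul_comm c, mul_comm (ev (F.hsC f c (v2 k _)))]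
    ring
  have e2 : ev (F.dt (F.nsq (F.hsC f c))) = 2 * (∑ k, ∑ l, (∑ m, D k l m * X m) * T k l
      + ∑ k, ∑ l, (∑ m, D l m k * X m) * T k l - ∑ k, ∑ l, (∑ m, D m l k * X m) * T k l
      + (∑ k, ∑ l, (∑ m, T k m * r l m) * T k l + c * ∑ k, ∑ l, r l k * T k l)
      + (∑ k, ∑ l, (∑ m, r k m * T m l) * T k l + c * ∑ k, ∑ l, r k l * T k l)) := by
    rw [Co.nsq, F.dt_ip, ip_comm (F.hsC f c) _ F.gi_symm, F.hs_Dt, ← two_mul, map_mul, map_ofNat,
      gv_ev_ip2 ev h]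
    simp only [e, add_mul, sub_mul, sum_add_distrib, sum_sub_distrib, mul_sum, mul_assoc, hT]
  have eP : ev (F.nsq (F.hsC f c)) = ∑ a, ∑ b, T a b ^ 2 := by
    simp only [Co.nsq, gv_ev_ip2 ev h, sq, hT]
  have eD : ev (F.nsq (F.cov F.ricT)) = ∑ a, ∑ b, ∑ c, D a b c ^ 2 := by
    simp only [Co.nsq, hs_ev_ip3 F.toCo ev h, sq, hD]
  have eX : ev (F.gam f f) = ∑ a, X a ^ 2 := by
    simp only [Co.gam, hs_ev_ip1 F.toCo ev h, sq, hX, Co.dT_v1]
  have er : ev (F.nsq F.ricT) = ∑ a, ∑ b, r a b ^ 2 := by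
    simp only [Co.nsq, gv_ev_ip2 ev h, sq, hr, Co.ricT_v2]
  have a1 := d3_T D X T
  have a2 := d3_T (fun k l m => D l m k) X T
  have a3 := d3_T (fun k l m => D m l k) X T
  have a4 := mm_T T r T
  have a5 := mm_T r (fun l m => T m l) T
  have a6 := cs2 (fun k l => r l k) T
  have a7 := cs2 r T
  rw [← Gb.s3_rot fun a b c => D a b c ^ 2] at a2
  rw [show ∑ a, ∑ b, ∑ c, D c b a ^ 2 = ∑ a, ∑ b, ∑ c, D a b c ^ 2 by
    rw [Gb.s3_rot fun a b c => D a b c ^ 2]; exact sum_congr rfl fun _ _ => sum_comm] at a3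
  rw [← Gb.s2 fun a b => T a b ^ 2] at a5
  rw [← Gb.s2 fun a b => r a b ^ 2] at a6
  have a8 := (abs_mul c _).le.trans (mul_le_mul_of_nonneg_left a6 (abs_nonneg c))
  have a9 := (abs_mul c _).le.trans (mul_le_mul_of_nonneg_left a7 (abs_nonneg c))
  rw [e2, eP, eD, eX, er]
  set P := √(∑ a, ∑ b, T a b ^ 2)
  set Q := √(∑ a, ∑ b, r a b ^ 2)
  have hP : 0 ≤ P := Real.sqrt_nonneg _
  have hQ : 0 ≤ Q := Real.sqrt_nonneg _
  have b1 : 0 ≤ P * Q * P := by positivity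
  have b2 : 0 ≤ |c| * (Q * P) := by positivity
  rw [abs_le] at a1 a2 a3 a4 a5 a8 a9 ⊢
  constructor <;> nlinarith

/-- in dimension four the curvature is controlled by the third derivatives of a function -/
theorem Co.hs_lanc (C : Co 4 S) (ev : S →+* ℝ)
    (h : ∀ a b, ev (C.gi a b) = if a = b then 1 else 0) (f : S) :
    ev (C.nsq C.rmT) * ev (C.gam f f) ≤
      88 * (ev (C.nsq (C.cov (C.hessT f))) + ev (C.nsq C.ricT) * ev (C.gam f f)) := by
  have key := lanczos_le (fun a b c d => ev (C.rl a b c d))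
    (fun a b c d => by rw [C.rl_anti12 b a c d, map_neg])
    (fun a b c d => by rw [C.rl_anti34 a b d c, map_neg])
    (fun a b c d => by rw [C.rl_pair c d a b])
    (fun a b c d => by rw [← map_add, ← map_add, C.rl_bianchi, map_zero])
    (fun k j => ev (C.ricc k j)) (hs_ev_ric C ev h) fun a => ev (C.d a f)
  have h1 := sub_sw_le fun a b c => ev (C.cov (C.hessT f) (v3 a b c))
  have e : ∀ k i j, (ev (C.cov (C.hessT f) (v3 i j k)) - ev (C.cov (C.hessT f) (v3 j i k))) ^ 2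
      = (∑ l, ev (C.rl l k i j) * ev (C.d l f)) ^ 2 := by
    intro k i j
    have h2 := congrArg ev (congrFun (C.ricci_id (C.dT f)) (v3 i j k))
    rw [Pi.add_apply, sw_cons, gamH_cons, act_v1, map_add, map_sum] at h2
    simp only [map_mul, hs_ev_raise C ev h, sl_apply, Co.dT_v1, Co.rmT_v4] at h2
    rw [Co.hessT, h2, add_sub_cancel_left, ← neg_sq, ← sum_neg_distrib]
    congr 1
    exact sum_congr rfl fun l _ => by
      rw [C.rl_pair i j k l, C.rl_anti12 k l i j, map_neg]; ring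
  simp only [e] at h1
  have h3 : 0 ≤ ∑ a, ∑ b, ∑ c, ev (C.cov (C.hessT f) (v3 a b c)) ^ 2 :=
    sum_nonneg fun _ _ => nn2 _
  simp only [Co.nsq, Co.gam, gv_ev_ip2 ev h, gv_ev_ip4 ev h, hs_ev_ip1 C ev h, hs_ev_ip3 C ev h,
    Co.rmT_v4, Co.ricT_v2, Co.dT_v1, ← sq]
  linarith

end Crest.Agent.N207.A
end

-- ▼ part N207/V/Hs3

/-!
# Row 207 (helper97): `HC.Hes` for a Ricci flow
-/

set_option autoImplicit false
set_option linter.unusedSectionVars false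

open scoped ContDiff Manifold Topology
open Set Filter MeasureTheory
open Crest.GeometryTopology.CoordMetric Crest.GeometryTopology.ChartCurvature
  Crest.GeometryTopology.MetricFamily
open Crest.Agent.R247 Crest.Agent.R202.Tens Crest.Agent.N207.A

noncomputable section

namespace Crest.Agent.N207.V

section Coord

variable {n : ℕ} {G : MetricField n} {U : Set (En n)} {y : En n} {f : En n → ℝ}

/-- `Hess f - c g` -/
def hsT (G : MetricField n) (f : En n → ℝ) (c : ℝ) : Tn n 2 := hessT G f - c • N207.matT G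

theorem nsq_hsT (hG : IsRiemannianOn G U) (hy : y ∈ U) (hf : ContDiffOn ℝ ∞ f U) (c : ℝ) :
    nsq G (hsT G f c) y = nsq G (hessT G f) y - 2 * c * laplaceBeltrami G f y + n * c ^ 2 := by
  have h1 : nsq G (hsT G f c) y = _ :=
    Ar.ipA_sub_self (hG.posDef y hy) (hessT G f y) (c • N207.matT G y)
  have h2 := AI.ip_matT hG hy (hessT G f)
  have h3 := AI.nsq_matT hG hy
  rw [← lapB_eq_trT hG hy (c2At hf hG.isOpen hy), N207.ip_comm hG hy] at h2
  simp only [nsq, N207.ip] at h2 h3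
  rw [h1, Ar.ipA_smul_right, Ar.ipA_smul_left, Ar.ipA_smul_right, h2, h3, nsq, N207.ip]
  ring

theorem cov_hsT (hG : IsRiemannianOn G U) (hy : y ∈ U) (hf : ContDiffOn ℝ ∞ f U) (c : ℝ) :
    cov G (hsT G f c) y = cov G (hessT G f) y := by
  rw [hsT, cov_sub ((SmT.hessT hG hf).dAt hG.isOpen hy) (((SmT.met hG).smul c).dAt hG.isOpen hy),
    cov_smul, Pi.smul_apply, cov_met hG hy, smul_zero, sub_zero]

theorem conT_met (hG : IsRiemannianOn G U) (hy : y ∈ U) (w : Tn n 1) (l : Fin n) :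
    conT G w (N207.matT G) y ![l] = w y ![l] := by
  rw [conT_apply, ipA_one, ← g_ginv_sum hG hy l fun a => w y ![a]]
  simp only [Finset.mul_sum]
  rw [Finset.sum_comm]
  refine Finset.sum_congr rfl fun b _ => Finset.sum_congr rfl fun a _ => ?_
  rw [ginv_symm hG hy a b]
  change _ * (_ * G y l b) = _
  ring

theorem kato_hsT (hG : IsRiemannianOn G U) (hy : y ∈ U) (hf : ContDiffOn ℝ ∞ f U) (c : ℝ) :
    Bo84.gam G (fun z => Bo84.gam G f f z - 2 * c * f z) (fun z => Bo84.gam G f f z - 2 * c * f z) y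
      ≤ 4 * Bo84.gam G f f y * nsq G (hsT G f c) y := by
  have h1 : N207.dT (fun z => Bo84.gam G f f z - 2 * c * f z) y
      = (2 : ℝ) • conT G (N207.dT f) (hsT G f c) y := by
    have e : Bo84.gam G f f = nsq G (N207.dT f) := funext fun z => (N207.ip_dT G f f z).symm
    have h2 := dT_nsq hG hy ((SmT.dT hG.isOpen hf).dAt hG.isOpen hy)
    refine arr1_ext fun l => ?_
    have h3 : pderiv l (nsq G (N207.dT f)) y = 2 * conT G (N207.dT f) (hessT G f) y ![l] :=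
      congrFun h2 ![l]
    have h4 : conT G (N207.dT f) (hsT G f c) y ![l] = conT G (N207.dT f) (hessT G f) y ![l]
        - c * conT G (N207.dT f) (N207.matT G) y ![l] := by
      rw [conT_apply, conT_apply, conT_apply, ← ipA_smul_right, ← ipA_sub_right]; rfl
    have h5 : N207.dT (fun z => Bo84.gam G f f z - 2 * c * f z) y ![l]
        = pderiv l (Bo84.gam G f f) y - 2 * c * pderiv l f y := by
      rw [← pd_cmul, ← pd_sub l (dAt (N207.sm_gam hG hf hf) hG.isOpen hy)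
        ((dAt hf hG.isOpen hy).const_mul _)]
      rfl
    rw [h5, e, h3, Pi.smul_apply, h4, conT_met hG hy, smul_eq_mul]
    change _ = 2 * (_ - c * pderiv l f y)
    ring
  have h2 := AI.nsq_conT_le hG hy (N207.dT f) (hsT G f c)
  rw [← N207.ip_dT, ← N207.ip_dT, N207.ip, h1, Ar.ipA_smul_left, Ar.ipA_smul_right]
  simp only [nsq, N207.ip] at h2 ⊢
  linarith

theorem covN_three (G : MetricField n) (f : En n → ℝ) :
    covN G (N207.fnT f) 3 = cov G (hessT G f) := by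
  change cov G (cov G (cov G (N207.fnT f))) = _
  rw [cov_fnT]; rfl

theorem repT_hs {J : Set ℝ} {G : ℝ → MetricField n} (c : CFam G J U) (o : Ok J U) {φ : SR J U}
    {u : ℝ → En n → ℝ} (h : Rep φ u) (a : ℝ) :
    RepT ((co c o).hsC φ a) fun t => hsT (G t) (u t) a :=
  (h.hessT c o).sub ((repT_g c o).const_smul a)

end Coord

section Flow

variable {n : ℕ} {J : Set ℝ} {U : Set (En n)} {G : ℝ → MetricField n} {t : ℝ} {y : En n}

theorem c_heat (w : WF G J U) {u : ℝ → En n → ℝ} (hu : St u J U)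
    (hd : ∀ s ∈ J, ∀ z ∈ U, HasDerivWithinAt (fun r => u r z) (laplaceBeltrami (G s) (u s) z) J s)
    (c : ℝ) (ht : t ∈ J) (hy : y ∈ U) (h1 : G t y = 1) :
    ∃ D, HasDerivWithinAt (fun s => nsq (G s) (hsT (G s) (u s) c) y) D J t ∧
      D - laplaceBeltrami (G t) (nsq (G t) (hsT (G t) (u t) c)) y ≤
        -2 * nsq (G t) (cov (G t) (hessT (G t) (u t))) y +
        4 * (√(nsq (G t) (rmT (G t)) y) * nsq (G t) (hsT (G t) (u t) c) y +
          |c| * √(nsq (G t) (ricT (G t)) y) * √(nsq (G t) (hsT (G t) (u t) c) y)) := by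
  have h := rep_mkS hu
  have hf : w.R.dt (mkS u hu) = w.R.lap0 (mkS u hu) :=
    (h.dT w.ok hd).ext (h.lap0 w.1 w.ok) fun _ _ _ _ => rfl
  have key := w.R.hs_heat (evp ht hy) (ev_gi_one w.1 w.ok ht hy h1) hf (evp_algebraMap ht hy c)
  have hp := (repT_hs w.1 w.ok h c).nsq w.1 w.ok
  refine ⟨_, hp.hasDeriv w.ok ht hy, ?_⟩
  have e1 := hp.lap0 w.1 w.ok ht hy
  have e2 := hp ht hy
  have e3 := (repT_rm w.1 w.ok).nsq w.1 w.ok ht hy
  have e4 := (repT_ric w.1 w.ok).nsq w.1 w.ok ht hy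
  have e5 := ((h.hessT w.1 w.ok).cov w.1 w.ok).nsq w.1 w.ok ht hy
  rw [WF.R_toCo, e1, e2, e3, e4, e5] at key
  exact key

theorem c_stat (w : WF G J U) {u : En n → ℝ} (hu : ContDiffOn ℝ ∞ u U)
    (c : ℝ) (ht : t ∈ J) (hy : y ∈ U) (h1 : G t y = 1) :
    ∃ D, HasDerivWithinAt (fun s => nsq (G s) (hsT (G s) u c) y) D J t ∧
      |D| ≤ 6 * √(nsq (G t) (hsT (G t) u c) y) *
        (√(nsq (G t) (cov (G t) (ricT (G t))) y) * √(Bo84.gam (G t) u u y)
          + √(nsq (G t) (ricT (G t)) y) * (√(nsq (G t) (hsT (G t) u c) y) + |c|)) := by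
  have h := rep_mkS (st_const (J := J) hu)
  have key := w.R.hs_stat (evp ht hy) (ev_gi_one w.1 w.ok ht hy h1) (h.dT_static w.ok)
    (evp_algebraMap ht hy c)
  have hp := (repT_hs w.1 w.ok h c).nsq w.1 w.ok
  refine ⟨_, hp.hasDeriv w.ok ht hy, ?_⟩
  have e2 := hp ht hy
  have e3 := ((repT_ric w.1 w.ok).cov w.1 w.ok).nsq w.1 w.ok ht hy
  have e4 := (repT_ric w.1 w.ok).nsq w.1 w.ok ht hy
  have e5 := h.gam w.1 w.ok h ht hy
  rw [WF.R_toCo, e2, e3, e4, e5] at key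
  exact key

theorem c_lanc {G : MetricField 4} {U : Set E4} {y : E4} (hG : IsRiemannianOn G U) (hy : y ∈ U)
    {u : E4 → ℝ} (hu : ContDiffOn ℝ ∞ u U) (h1 : G y = 1) :
    nsq G (rmT G) y * Bo84.gam G u u y ≤
      88 * (nsq G (cov G (hessT G u)) y + nsq G (ricT G) y * Bo84.gam G u u y) := by
  have c := cfam_const hG univ
  have o : Ok univ U := .of_open isOpen_univ hG.isOpen
  have ht := mem_univ (0 : ℝ)
  have h := rep_mkS (st_const (J := univ) hu)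
  have key := (co c o).hs_lanc (evp ht hy) (ev_gi_one c o ht hy h1) (mkS _ (st_const hu))
  have e2 := ((h.hessT c o).cov c o).nsq c o ht hy
  have e3 := (repT_rm c o).nsq c o ht hy
  have e4 := (repT_ric c o).nsq c o ht hy
  have e5 := h.gam c o h ht hy
  rw [e2, e3, e4, e5] at key
  exact key

end Flow

section Norm

variable {n : ℕ} {M : Type*} [TopologicalSpace M] [ChartedSpace (En n) M]
  [IsManifold 𝓘(ℝ, En n) ∞ M]

/-- a parametrisation in which the metric is the identity at the origin -/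
theorem exists_par_norm (m : Met n M) (x : M) : ∃ (Ψ : En n → M) (U : Set (En n)),
    Par Ψ U ∧ 0 ∈ U ∧ Ψ 0 = x ∧ m.pm Ψ 0 = 1 := by
  obtain ⟨e, he⟩ := Ar.exists_fr (posDef_ctr m x)
  have h0 : AI.aff (ctr n x) e 0 ∈ tg n x := by rw [AI.aff_zero]; exact ctr_mem x
  refine ⟨fun z => (chartAt (En n) x).symm (AI.aff (ctr n x) e z), AI.aff (ctr n x) e ⁻¹' tg n x,
    Gs.par_comp (Par.chart x) (AI.isOpen_aff (isOpen_tg x) _ _)
      (AI.contDiff_aff _ _).contDiffOn (fun _ hy => hy) fun z _ => ?_, h0, ?_, ?_⟩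
  · rw [AI.fderiv_aff]; exact AI.linE_injective he
  · simp only [AI.aff_zero]; exact sy_ctr x
  · ext i j
    refine (Gs.bil_single _ i j).symm.trans ?_
    rw [Gs.pm_comp_bil m (Gs.par_md (Par.chart x) h0)
      ((AI.contDiff_aff _ _).differentiable (by simp) 0), AI.fderiv_aff, AI.aff_zero,
      AI.linE_eb, AI.linE_eb, Matrix.one_apply]
    exact he.orth i j

end Norm

variable {M : Type*} [TopologicalSpace M] [ChartedSpace E4 M] [IsManifold 𝓘(ℝ, E4) ∞ M]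
  [T3Space M] [ConnectedSpace M] [MeasurableSpace M] [BorelSpace M] (F : Flow M)

theorem pc_par {Ψ : E4 → M} {U : Set E4} (hP : Par Ψ U) {v : M → ℝ} (hv : Sm 4 v) (c s : ℝ)
    {y : E4} (hy : y ∈ U) : F.hc.Pc c s v (Ψ y) =
      nsq ((F.m s).pm Ψ) (hsT ((F.m s).pm Ψ) (fun z => v (Ψ z)) c) y := by
  rw [nsq_hsT (hP.riem _) hy (hP.contDiffOn_comp hv), HC.Pc, F.hc_hh, F.hc_lap,
    hP.par_hh _ hv hy, hP.par_lap _ hv hy]
  norm_num

theorem pc_eq {v : M → ℝ} (hv : Sm 4 v) (c s : ℝ) :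
    F.hc.Pc c s v = (F.m s).nsq ((F.m s).hess v - c • (F.m s).met) := funext fun x => by
  refine Eq.trans ?_ (nsq_hsT ((F.m s).isRiem x) (ctr_mem x) (hv.inCh x) c).symm
  rw [HC.Pc, Nat.cast_ofNat]; rfl

theorem glob_hs {v : M → ℝ} (hv : Sm 4 v) (c s : ℝ) :
    IsGlob ((F.m s).hess v - c • (F.m s).met) :=
  (IsGlob.hess _ hv).sub ((F.m s).glob_met.smul c)

theorem sm_pc {v : M → ℝ} (hv : Sm 4 v) (c s : ℝ) : Sm 4 (F.hc.Pc c s v) := by
  rw [pc_eq F hv]; exact sm_nsq _ (glob_hs F hv c s)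

theorem hes_kato {v : M → ℝ} (hv : Sm 4 v) (c t : ℝ) (x : M) :
    (F.m t).gam (F.hc.Pc c t v) (F.hc.Pc c t v) x ≤ 4 * F.hc.Pc c t v x * (F.m t).df 3 v x := by
  have h := AI.m_kato (F.m t) (glob_hs F hv c t) x
  have h2 : (F.m t).nsq ((F.m t).cov ((F.m t).hess v - c • (F.m t).met)) x = (F.m t).df 3 v x := by
    have h3 := cov_hsT ((F.m t).isRiem x) (ctr_mem x) (hv.inCh x) c
    have h4 := covN_three ((F.m t).G x) (Bo84.inCh 4 x v)
    change nsq ((F.m t).G x) (cov ((F.m t).G x) (hsT ((F.m t).G x) (Bo84.inCh 4 x v) c)) (ctr 4 x) =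
      nsq ((F.m t).G x) (covN ((F.m t).G x) (N207.fnT (Bo84.inCh 4 x v)) 3) (ctr 4 x)
    rw [h4, nsq, N207.ip, h3]; rfl
  rwa [h2, ← pc_eq F hv] at h

theorem hes_lanc {v : M → ℝ} (hv : Sm 4 v) (t : ℝ) (x : M) :
    (F.m t).rm 0 x * (F.m t).gam v v x ≤
      88 * ((F.m t).df 3 v x + (F.m t).rc 0 x * (F.m t).gam v v x) := by
  obtain ⟨Ψ, U, hP, h0, rfl, h1⟩ := exists_par_norm (F.m t) x
  rw [hP.par_rm _ 0 h0, hP.par_rc _ 0 h0, hP.par_gam _ hv hv h0, hP.par_df _ hv 3 h0, covN_three]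
  exact c_lanc (hP.riem _) h0 (hP.contDiffOn_comp hv) h1

variable {F}

theorem hes_heat {a b : ℝ} {u P' : ℝ → M → ℝ} (hs : F.hc.St a b) (hu : F.hc.Heat a b u) (c : ℝ)
    (hd : HasDt a b (fun t => F.hc.Pc c t (u t)) P') {t : ℝ} (ht : t ∈ Icc a b) (x : M) :
    P' t x - (F.m t).lap (F.hc.Pc c t (u t)) x ≤ -2 * (F.m t).df 3 (u t) x +
      4 * (√((F.m t).rm 0 x) * F.hc.Pc c t (u t) x
        + |c| * √((F.m t).rc 0 x) * √(F.hc.Pc c t (u t) x)) := by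
  obtain ⟨Ψ, U, hP, h0, rfl, h1⟩ := exists_par_norm (F.m t) x
  have hsub : Icc a b ⊆ Ioo 0 F.T := fun s hs' => ⟨hs.1.trans_le hs'.1, hs'.2.trans_lt hs.2.2⟩
  have hu1 : SmST 4 u (Icc a b) := hu.1
  obtain ⟨D, hD, key⟩ := c_heat (WF.icc (hP.cflow F) hs.2.1 hsub) (hP.st_comp hu1)
    (fun s hs' z hz => hP.par_lap _ (hu1.slice hs') hz ▸ hu.2 s hs' (Ψ z)) c ht h0 h1
  have e1 : P' t (Ψ 0) = D := (uniqueDiffOn_Icc hs.2.1 t ht).eq_deriv _ (hd t ht (Ψ 0))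
    (hD.congr_of_mem (fun s hs' => pc_par F hP (hu1.slice hs') c s h0) ht)
  have e2 : laplaceBeltrami ((F.m t).pm Ψ) (fun z => F.hc.Pc c t (u t) (Ψ z)) 0 = _ :=
    Bo84.lap_congr (ev_of_on hP.isOpen h0 fun z hz => pc_par F hP (hu1.slice ht) c t hz)
  rw [hP.par_rm _ 0 h0, hP.par_rc _ 0 h0, hP.par_df _ (hu1.slice ht) 3 h0, covN_three,
    hP.par_lap _ (sm_pc F (hu1.slice ht) c t) h0, e1, e2, pc_par F hP (hu1.slice ht) c t h0]
  exact key

theorem hes_stat {a b : ℝ} {u : M → ℝ} {P' : ℝ → M → ℝ} (hs : F.hc.St a b) (hu : Sm 4 u) (c : ℝ)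
    (hd : HasDt a b (fun t => F.hc.Pc c t u) P') {t : ℝ} (ht : t ∈ Icc a b) (x : M) :
    |P' t x| ≤ 6 * √(F.hc.Pc c t u x) * (√((F.m t).rc 1 x) * √((F.m t).gam u u x)
      + √((F.m t).rc 0 x) * (√(F.hc.Pc c t u x) + |c|)) := by
  obtain ⟨Ψ, U, hP, h0, rfl, h1⟩ := exists_par_norm (F.m t) x
  have hsub : Icc a b ⊆ Ioo 0 F.T := fun s hs' => ⟨hs.1.trans_le hs'.1, hs'.2.trans_lt hs.2.2⟩
  obtain ⟨D, hD, key⟩ := c_stat (WF.icc (hP.cflow F) hs.2.1 hsub) (hP.contDiffOn_comp hu) c ht h0 h1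
  have e1 : P' t (Ψ 0) = D := (uniqueDiffOn_Icc hs.2.1 t ht).eq_deriv _ (hd t ht (Ψ 0))
    (hD.congr_of_mem (fun s _ => pc_par F hP hu c s h0) ht)
  rw [hP.par_rc _ 0 h0, hP.par_rc _ 1 h0, hP.par_gam _ hu hu h0, e1, pc_par F hP hu c t h0]
  exact key

variable (F)

/-- **`HC.Hes` for a Ricci flow** -/
theorem hes : F.hc.Hes where
  heat := ⟨88, by norm_num, fun {a b u} hs hu => by
    have hsub : Icc a b ⊆ Ioo 0 F.T := fun s hs' => ⟨hs.1.trans_le hs'.1, hs'.2.trans_lt hs.2.2⟩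
    have hu1 : SmST 4 u (Icc a b) := hu.1
    refine ⟨fun t => (F.m t).df 3 (u t), (F.smo.mono' hsub).df hu1 3,
      fun t _ x => nsq_nonneg _ _ _, fun t ht x => hes_lanc F (hu1.slice ht) t x,
      fun c => ⟨fun t ht x => hes_kato F (hu1.slice ht) c t x, fun P' hd t ht x => ?_⟩⟩
    refine (hes_heat hs hu c hd ht x).trans (add_le_add_right
      (mul_le_mul_of_nonneg_right (by norm_num) ?_) _)
    have : 0 ≤ F.hc.Pc c t (u t) x := by rw [pc_eq F (hu1.slice ht)]; exact nsq_nonneg _ _ _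
    positivity⟩
  stat := ⟨6, by norm_num, fun c _ hs hu hd t ht x => hes_stat hs hu c hd ht x⟩
  kato t _ u hu c x := by
    have hG := (F.m t).isRiem x
    have h := kato_hsT hG (ctr_mem x) (Sm.inCh hu x) c
    have e : ∀ z ∈ tg 4 x, Bo84.inCh 4 x (fun y => (F.m t).gam u u y - 2 * c * u y) z =
        Bo84.gam ((F.m t).G x) (Bo84.inCh 4 x u) (Bo84.inCh 4 x u) z - 2 * c * Bo84.inCh 4 x u z :=
      fun z hz => by rw [← (F.m t).gam_chart u u hz]; rfl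
    rw [F.hc_gam, AI.gam_of_chart (F.m t) e e, pc_eq F hu]
    exact h

end Crest.Agent.N207.V

end
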